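import Mathlib.Topology.Algebra.ConstMulAction
import Mathlib.Analysis.Calculus.ContDiff.Basic
import Mathlib.Analysis.Calculus.ContDiff.RCLike
import Mathlib.Analysis.Calculus.ContDiff.Comp
import Mathlib.GroupTheory.GroupAction.Defs
import Vale.Agent.P265.H933.ChartMove

/-! Equivariant extension of a local move along a free orbit. -/

open Set Topology unitInterval Metric

set_option linter.unusedSectionVars false

namespace Vale.Agent.P265.H933

section Equiv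

variable {Y : Type*} [TopologicalSpace Y] {G : Type*} [Group G] [MulAction G Y]

open Classical in
/-- The equivariant extension of a deformation supported in `C`, the translates of `C` being
disjoint. -/
noncomputable def eqv (G : Type*) [Group G] [MulAction G Y] (θ : I → Y → Y) (C : Set Y) (s : I)
    (x : Y) : Y :=
  if h : ∃ g : G, g⁻¹ • x ∈ C then h.choose • θ s (h.choose⁻¹ • x) else x

variable {θ : I → Y → Y} {C : Set Y}

theorem eqv_of_mem (hdisj : ∀ g : G, g ≠ 1 → ∀ x ∈ C, g • x ∉ C) {s : I} {x : Y} {g : G}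
    (h : g⁻¹ • x ∈ C) : eqv G θ C s x = g • θ s (g⁻¹ • x) := by
  have hex : ∃ g : G, g⁻¹ • x ∈ C := ⟨g, h⟩
  have h1 : hex.choose = g := by
    by_contra hne
    have h2 : hex.choose⁻¹ * g ≠ 1 := fun h3 => hne (inv_mul_eq_one.1 h3)
    refine hdisj _ h2 _ h ?_
    rw [smul_smul, mul_assoc, mul_inv_cancel, mul_one]
    exact hex.choose_spec
  unfold eqv
  rw [dif_pos hex, h1]

theorem eqv_of_not_mem {s : I} {x : Y} (h : ∀ g : G, g⁻¹ • x ∉ C) : eqv G θ C s x = x := by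
  unfold eqv
  rw [dif_neg (by push Not; exact h)]

theorem eqv_eq (hdisj : ∀ g : G, g ≠ 1 → ∀ x ∈ C, g • x ∉ C) (hfix : ∀ s x, x ∉ C → θ s x = x)
    {s : I} {x : Y} {g : G} (h : ∀ k : G, k ≠ g → k⁻¹ • x ∉ C) :
    eqv G θ C s x = g • θ s (g⁻¹ • x) := by
  by_cases hg : g⁻¹ • x ∈ C
  · exact eqv_of_mem hdisj hg
  · rw [hfix s _ hg, smul_inv_smul]
    refine eqv_of_not_mem (fun k => ?_)
    by_cases hk : k = g
    · rw [hk]; exact hg
    · exact h k hk

theorem exists_unique_near (hdisj : ∀ g : G, g ≠ 1 → ∀ x ∈ C, g • x ∉ C) (x : Y) :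
    ∃ g : G, ∀ k : G, k ≠ g → k⁻¹ • x ∉ C := by
  by_cases hex : ∃ g : G, g⁻¹ • x ∈ C
  · obtain ⟨g, hg⟩ := hex
    refine ⟨g, fun k hk hkx => ?_⟩
    have h2 : k⁻¹ * g ≠ 1 := fun h3 => hk (inv_mul_eq_one.1 h3)
    refine hdisj _ h2 _ hg ?_
    rw [smul_smul, mul_assoc, mul_inv_cancel, mul_one]
    exact hkx
  · push Not at hex
    exact ⟨1, fun k _ => hex k⟩

theorem continuous_eqv [Finite G] [ContinuousConstSMul G Y] (hC : IsClosed C)
    (hdisj : ∀ g : G, g ≠ 1 → ∀ x ∈ C, g • x ∉ C) (hfix : ∀ s x, x ∉ C → θ s x = x)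
    (hθ : Continuous (fun p : I × Y => θ p.1 p.2)) :
    Continuous (fun p : I × Y => eqv G θ C p.1 p.2) := by
  rw [continuous_iff_continuousAt]
  rintro ⟨s₀, x₀⟩
  obtain ⟨g, hg⟩ := exists_unique_near hdisj x₀
  have hW : IsOpen {x : Y | ∀ k : G, k ≠ g → k⁻¹ • x ∉ C} := by
    have : {x : Y | ∀ k : G, k ≠ g → k⁻¹ • x ∉ C} =
        ⋂ k : {k : G // k ≠ g}, {x : Y | (k : G)⁻¹ • x ∉ C} := by
      ext x; simp
    rw [this]
    exact isOpen_iInter_of_finite (fun k => (hC.preimage (continuous_const_smul _)).isOpen_compl)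
  have h1 : Continuous (fun p : I × Y => g • θ p.1 (g⁻¹ • p.2)) := by
    have h2 : Continuous (fun p : I × Y => (p.1, g⁻¹ • p.2)) :=
      continuous_fst.prodMk (continuous_snd.const_smul _)
    exact (hθ.comp h2).const_smul g
  refine h1.continuousAt.congr ?_
  have h3 : ∀ᶠ p : I × Y in 𝓝 (s₀, x₀), p.2 ∈ {x : Y | ∀ k : G, k ≠ g → k⁻¹ • x ∉ C} :=
    continuous_snd.continuousAt.eventually (hW.mem_nhds hg)
  filter_upwards [h3] with p hp
  exact (eqv_eq hdisj hfix hp).symm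

theorem eqv_smul (hdisj : ∀ g : G, g ≠ 1 → ∀ x ∈ C, g • x ∉ C) (hfix : ∀ s x, x ∉ C → θ s x = x)
    (s : I) (x : Y) (k : G) : eqv G θ C s (k • x) = k • eqv G θ C s x := by
  obtain ⟨g, hg⟩ := exists_unique_near hdisj x
  rw [eqv_eq hdisj hfix hg, eqv_eq (g := k * g) hdisj hfix]
  · rw [smul_smul, mul_inv_rev, smul_smul]
    simp
  · intro l hl hlx
    refine hg (k⁻¹ * l) (fun h => hl (by rw [← h]; simp)) ?_
    rw [mul_inv_rev, inv_inv, ← smul_smul]
    exact hlx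

/-- The equivariant extension of a local move is a move. -/
theorem gmove_eqv [Finite G] [ContinuousConstSMul G Y] {F : Y → ℝ} {X A : Set Y}
    (hC : IsClosed C) (hCX : C ⊆ X) (hCA : Disjoint C A)
    (hX : ∀ (g : G), ∀ x ∈ X, g • x ∈ X) (hA : ∀ (g : G), ∀ x ∈ A, g • x ∈ A)
    (hF : ∀ (g : G) (x : Y), F (g • x) = F x)
    (hdisj : ∀ g : G, g ≠ 1 → ∀ x ∈ C, g • x ∉ C) (hfix : ∀ s x, x ∉ C → θ s x = x)
    (hθ : Continuous (fun p : I × Y => θ p.1 p.2)) (h0 : ∀ x, θ 0 x = x)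
    (hmap : ∀ s, ∀ x ∈ C, θ s x ∈ C) (hmono : ∀ s, ∀ x ∈ C, F (θ s x) ≤ F x)
    (hstrict : ∀ x ∈ C, θ 1 x = x ∨ F (θ 1 x) < F x) :
    GMove G F X A (eqv G θ C) where
  cont := (continuous_eqv hC hdisj hfix hθ).continuousOn
  zero x _ := by
    obtain ⟨g, hg⟩ := exists_unique_near hdisj x
    rw [eqv_eq hdisj hfix hg, h0, smul_inv_smul]
  equiv k s x _ := eqv_smul hdisj hfix s x k
  mapsX s x hx := by
    obtain ⟨g, hg⟩ := exists_unique_near hdisj x
    rw [eqv_eq hdisj hfix hg]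
    by_cases h : g⁻¹ • x ∈ C
    · exact hX g _ (hCX (hmap s _ h))
    · rw [hfix s _ h, smul_inv_smul]; exact hx
  mapsA s x hx := by
    have h : ∀ g : G, g⁻¹ • x ∉ C := fun g hg => hCA.le_bot ⟨hg, hA _ _ hx⟩
    rw [eqv_of_not_mem h]; exact hx
  mono s x _ := by
    obtain ⟨g, hg⟩ := exists_unique_near hdisj x
    rw [eqv_eq hdisj hfix hg, hF]
    by_cases h : g⁻¹ • x ∈ C
    · exact (hmono s _ h).trans_eq (hF _ _)
    · rw [hfix s _ h, hF]
  strict x _ := by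
    obtain ⟨g, hg⟩ := exists_unique_near hdisj x
    rw [eqv_eq hdisj hfix hg, hF]
    by_cases h : g⁻¹ • x ∈ C
    · rcases hstrict _ h with h1 | h1
      · left; rw [h1, smul_inv_smul]
      · right; exact h1.trans_eq (hF _ _)
    · left; rw [hfix 1 _ h, smul_inv_smul]

/-- A free orbit of a finite group acting continuously on a Hausdorff space has a neighbourhood
with disjoint translates. -/
theorem exists_disjoint_nhds [Finite G] [ContinuousConstSMul G Y] [T2Space Y] {x₀ : Y}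
    (hfree : ∀ g : G, g ≠ 1 → g • x₀ ≠ x₀) :
    ∃ O : Set Y, IsOpen O ∧ x₀ ∈ O ∧ ∀ g : G, g ≠ 1 → ∀ x ∈ O, g • x ∉ O := by
  have h1 : ∀ g : {g : G // g ≠ 1}, ∃ U : Set Y, IsOpen U ∧ x₀ ∈ U ∧
      ∀ x ∈ U, (g : G) • x ∉ U := by
    rintro ⟨g, hg⟩
    obtain ⟨U, V, hU, hV, hxU, hxV, hUV⟩ := t2_separation (hfree g hg)
    refine ⟨V ∩ {x | g • x ∈ U}, hV.inter (hU.preimage (continuous_const_smul g)),
      ⟨hxV, hxU⟩, ?_⟩
    rintro x ⟨_, hx2⟩ ⟨hx3, _⟩
    exact hUV.le_bot ⟨hx2, hx3⟩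
  choose U hU1 hU2 hU3 using h1
  refine ⟨⋂ g, U g, isOpen_iInter_of_finite hU1, mem_iInter.2 hU2, fun g hg x hx hgx => ?_⟩
  exact hU3 ⟨g, hg⟩ x (mem_iInter.1 hx _) (mem_iInter.1 hgx _)

variable {E : Type*} [NormedAddCommGroup E] [NormedSpace ℝ E]

/-- Near a point at which `F` has a nonzero derivative in a chart there is an equivariant move
decreasing `F`. -/
theorem exists_local_move [Finite G] [ContinuousConstSMul G Y] [T2Space Y] [ProperSpace E]
    {F : Y → ℝ} {X A : Set Y} {x₀ : Y} (hXx : X ∈ 𝓝 x₀) (hAx : Aᶜ ∈ 𝓝 x₀)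
    (hX : ∀ (g : G), ∀ x ∈ X, g • x ∈ X) (hA : ∀ (g : G), ∀ x ∈ A, g • x ∈ A)
    (hF : ∀ (g : G) (x : Y), F (g • x) = F x)
    (hfree : ∀ g : G, g ≠ 1 → g • x₀ ≠ x₀)
    (e : OpenPartialHomeomorph Y E) (hx₀ : x₀ ∈ e.source)
    (hd : ContDiffAt ℝ 1 (F ∘ e.symm) (e x₀)) (hne : fderiv ℝ (F ∘ e.symm) (e x₀) ≠ 0) :
    ∃ θ : I → Y → Y, GMove G F X A θ ∧ ∃ W ∈ 𝓝 x₀, ∀ y ∈ W, y ∈ X → F (θ 1 y) < F y := by
  set f : E → ℝ := F ∘ e.symm with hf
  set ξ₀ : E := e x₀ with hξ₀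
  obtain ⟨O, hO, hxO, hOd⟩ := exists_disjoint_nhds (Y := Y) hfree
  obtain ⟨v, c, hc, hv⟩ : ∃ (v : E) (c : ℝ), 0 < c ∧ fderiv ℝ f ξ₀ v < -c := by
    obtain ⟨w, hw⟩ : ∃ w, fderiv ℝ f ξ₀ w ≠ 0 := by
      by_contra h
      push Not at h
      exact hne (ContinuousLinearMap.ext h)
    rcases lt_or_gt_of_ne hw with h | h
    · exact ⟨w, -(fderiv ℝ f ξ₀ w) / 2, by linarith, by linarith⟩
    · refine ⟨-w, fderiv ℝ f ξ₀ w / 2, by linarith, ?_⟩
      rw [map_neg]; linarith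
  have hev1 : ∀ᶠ ξ in 𝓝 ξ₀, DifferentiableAt ℝ f ξ := by
    have := hd.eventually (by simp)
    filter_upwards [this] with ξ hξ
    exact hξ.differentiableAt (by norm_num)
  have hev2 : ∀ᶠ ξ in 𝓝 ξ₀, fderiv ℝ f ξ v < -c := by
    have h1 : ContinuousAt (fderiv ℝ f) ξ₀ := (hd.fderiv_right (m := 0) (by norm_num)).continuousAt
    have h2 : ContinuousAt (fun ξ => fderiv ℝ f ξ v) ξ₀ := h1.clm_apply continuousAt_const
    exact h2.eventually (gt_mem_nhds hv)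
  have hev3 : ∀ᶠ ξ in 𝓝 ξ₀, ξ ∈ e.target := e.open_target.mem_nhds (e.map_source hx₀)
  have hev4 : ∀ᶠ ξ in 𝓝 ξ₀, e.symm ξ ∈ O ∩ X ∩ Aᶜ := by
    have h1 : ContinuousAt e.symm ξ₀ := e.continuousAt_symm (e.map_source hx₀)
    refine h1.eventually ?_
    rw [hξ₀, e.left_inv hx₀]
    exact Filter.inter_mem (Filter.inter_mem (hO.mem_nhds hxO) hXx) hAx
  obtain ⟨ρ, hρ, hball⟩ := Metric.eventually_nhds_iff_ball.1 (hev1.and (hev2.and (hev3.and hev4)))
  set r : ℝ := ρ / 4 with hr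
  have hr0 : 0 < r := by positivity
  have hsub : closedBall ξ₀ (2 * r) ⊆ ball ξ₀ ρ := closedBall_subset_ball (by rw [hr]; linarith)
  have hb : closedBall ξ₀ (2 * r) ⊆ e.target := fun ξ hξ => (hball ξ (hsub hξ)).2.2.1
  set τ : ℝ := 2 * r / (‖v‖ + 1) with hτ
  have hτ0 : 0 < τ := by positivity
  have hτv : τ * ‖v‖ ≤ 2 * r := by
    rw [hτ, div_mul_eq_mul_div, div_le_iff₀ (by positivity)]
    nlinarith [norm_nonneg v]
  have hCO : supp e ξ₀ r ⊆ O ∩ X ∩ Aᶜ := by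
    rintro _ ⟨ξ, hξ, rfl⟩
    exact (hball ξ (hsub hξ)).2.2.2
  have hle : ∀ (s : I), ∀ x ∈ supp e ξ₀ r, F (ymove e ξ₀ r τ v s x) ≤
      F x - c * ((s : ℝ) * τ * tent ξ₀ r (e x)) := by
    intro s x hx
    have hx' := (mem_supp hb).1 hx
    have h1 := apply_cmove_le (f := f) (c := c) hr0 hτ0.le hτv
      (fun ξ hξ => (hball ξ (hsub hξ)).1.hasFDerivAt)
      (fun ξ hξ => (hball ξ (hsub hξ)).2.1.le) s hx'.2
    rw [ymove_of_mem hx]
    have h2 : f (e x) = F x := by rw [hf, Function.comp_apply, e.left_inv hx'.1]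
    rw [← h2]
    exact h1
  refine ⟨eqv G (ymove e ξ₀ r τ v) (supp e ξ₀ r), ?_, ?_⟩
  · refine gmove_eqv (isCompact_supp hb).isClosed (fun x hx => (hCO hx).1.2) ?_ hX hA hF
      (fun g hg x hx hgx => hOd g hg x (hCO hx).1.1 (hCO hgx).1.1)
      (fun s x hx => ymove_of_not_mem hx) (continuous_ymove hb hr0 hτ0.le hτv)
      (ymove_zero hb) (fun s x hx => ymove_mem hb hr0 hτ0.le hτv hx) ?_ ?_
    · rw [disjoint_left]
      exact fun x hx hxA => (hCO hx).2 hxA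
    · intro s x hx
      refine (hle s x hx).trans ?_
      have : 0 ≤ c * ((s : ℝ) * τ * tent ξ₀ r (e x)) :=
        mul_nonneg hc.le (mul_nonneg (mul_nonneg s.2.1 hτ0.le) (tent_nonneg _ _ _))
      linarith
    · intro x hx
      rcases (tent_nonneg ξ₀ r (e x)).eq_or_lt with h | h
      · left
        have hx' := (mem_supp hb).1 hx
        rw [ymove_of_mem hx]
        unfold cmove
        rw [← h]
        simp [e.left_inv hx'.1]
      · right
        refine (hle 1 x hx).trans_lt ?_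
        have : 0 < c * (((1 : I) : ℝ) * τ * tent ξ₀ r (e x)) := by
          simp only [Icc.coe_one, one_mul]; positivity
        linarith
  · refine ⟨e.source ∩ e ⁻¹' ball ξ₀ (2 * r),
      (e.isOpen_inter_preimage isOpen_ball).mem_nhds ⟨hx₀, mem_ball_self (by positivity)⟩, ?_⟩
    rintro y ⟨hy1, hy2⟩ _
    have hy : y ∈ supp e ξ₀ r := (mem_supp hb).2 ⟨hy1, ball_subset_closedBall hy2⟩
    have h1 : eqv G (ymove e ξ₀ r τ v) (supp e ξ₀ r) 1 y = ymove e ξ₀ r τ v 1 y := by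
      have := eqv_of_mem (G := G) (θ := ymove e ξ₀ r τ v) (C := supp e ξ₀ r) (s := 1) (x := y)
        (g := 1) (fun g hg x hx hgx => hOd g hg x (hCO hx).1.1 (hCO hgx).1.1) (by simpa using hy)
      simpa using this
    rw [h1]
    refine (hle 1 y hy).trans_lt ?_
    have h2 : 0 < tent ξ₀ r (e y) := tent_pos hr0 (by
      have := hy2
      rw [mem_preimage, mem_ball, dist_eq_norm] at this
      exact this)
    have : 0 < c * (((1 : I) : ℝ) * τ * tent ξ₀ r (e y)) := by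
      simp only [Icc.coe_one, one_mul]; positivity
    linarith

end Equiv

end Vale.Agent.P265.H933
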