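import Mathlib.Topology.UnitInterval
import Mathlib.Topology.Homotopy.Basic
import Mathlib.Topology.Algebra.MulAction
import Mathlib.Topology.MetricSpace.Basic
import Mathlib.Tactic

/-! Equivariant deformations of a compact set `X` which never increase a function `F`, preserve
the exit set `A`, and move a point only if they decrease `F` there. -/

open Set Topology unitInterval

namespace Vale.Agent.P265.H933

variable {Y : Type*} [TopologicalSpace Y] {G : Type*} [Group G] [MulAction G Y]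

/-- A `G`-equivariant deformation of `X` preserving `A`, never increasing `F`, and at time one
either fixing a point or decreasing `F` strictly at it. -/
structure GMove (G : Type*) [Group G] [MulAction G Y] (F : Y → ℝ) (X A : Set Y)
    (θ : I → Y → Y) : Prop where
  cont : ContinuousOn (fun p : I × Y => θ p.1 p.2) (univ ×ˢ X)
  zero : ∀ x ∈ X, θ 0 x = x
  equiv : ∀ (g : G) (s : I), ∀ x ∈ X, θ s (g • x) = g • θ s x
  mapsX : ∀ (s : I), ∀ x ∈ X, θ s x ∈ X
  mapsA : ∀ (s : I), ∀ x ∈ A, θ s x ∈ A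
  mono : ∀ (s : I), ∀ x ∈ X, F (θ s x) ≤ F x
  strict : ∀ x ∈ X, θ 1 x = x ∨ F (θ 1 x) < F x

variable {F : Y → ℝ} {X A : Set Y}

theorem GMove.refl : GMove G F X A (fun _ x => x) where
  cont := continuous_snd.continuousOn
  zero _ _ := rfl
  equiv _ _ _ _ := rfl
  mapsX _ _ h := h
  mapsA _ _ h := h
  mono _ _ _ := le_rfl
  strict _ _ := Or.inl rfl

theorem GMove.comp {θ θ' : I → Y → Y} (h : GMove G F X A θ) (h' : GMove G F X A θ') :
    GMove G F X A (fun s x => θ' s (θ s x)) where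
  cont := by
    have h1 : ContinuousOn (fun p : I × Y => (p.1, θ p.1 p.2)) (univ ×ˢ X) :=
      continuous_fst.continuousOn.prodMk h.cont
    exact h'.cont.comp h1 (fun p hp => ⟨mem_univ _, h.mapsX _ _ hp.2⟩)
  zero x hx := by
    show θ' 0 (θ 0 x) = x
    rw [h.zero x hx, h'.zero x hx]
  equiv g s x hx := by
    show θ' s (θ s (g • x)) = g • θ' s (θ s x)
    rw [h.equiv g s x hx, h'.equiv g s _ (h.mapsX s x hx)]
  mapsX s x hx := h'.mapsX s _ (h.mapsX s x hx)
  mapsA s x hx := h'.mapsA s _ (h.mapsA s x hx)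
  mono s x hx := (h'.mono s _ (h.mapsX s x hx)).trans (h.mono s x hx)
  strict x hx := by
    rcases h.strict x hx with h1 | h1
    · show θ' 1 (θ 1 x) = x ∨ F (θ' 1 (θ 1 x)) < F x
      rw [h1]
      exact h'.strict x hx
    · exact Or.inr ((h'.mono 1 _ (h.mapsX 1 x hx)).trans_lt h1)

/-- The points of `X` at which the time one map of a composition decreases `F`. -/
theorem GMove.comp_lt_left {θ θ' : I → Y → Y} (h : GMove G F X A θ) (h' : GMove G F X A θ')
    {x : Y} (hx : x ∈ X) (hl : F (θ 1 x) < F x) : F (θ' 1 (θ 1 x)) < F x :=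
  (h'.mono 1 _ (h.mapsX 1 x hx)).trans_lt hl

theorem GMove.comp_lt_right {θ θ' : I → Y → Y} (h : GMove G F X A θ) (h' : GMove G F X A θ')
    {x : Y} (hx : x ∈ X) (hl : F (θ' 1 x) < F x) : F (θ' 1 (θ 1 x)) < F x := by
  rcases h.strict x hx with h1 | h1
  · rw [h1]; exact hl
  · exact h.comp_lt_left h' hx h1

/-- If `F` can be decreased locally near every point of the compact set `K`, it can be decreased
on `K`. -/
theorem exists_move_compact {K : Set Y} (hK : IsCompact K) (hKX : K ⊆ X)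
    (hloc : ∀ x ∈ K, ∃ θ : I → Y → Y, GMove G F X A θ ∧
      ∃ W ∈ 𝓝 x, ∀ y ∈ W, y ∈ X → F (θ 1 y) < F y) :
    ∃ θ : I → Y → Y, GMove G F X A θ ∧ ∀ y ∈ K, F (θ 1 y) < F y := by
  have key : ∃ θ : I → Y → Y, GMove G F X A θ ∧ ∀ y ∈ K, y ∈ X → F (θ 1 y) < F y := by
    refine hK.induction_on
      (p := fun S => ∃ θ : I → Y → Y, GMove G F X A θ ∧ ∀ y ∈ S, y ∈ X → F (θ 1 y) < F y)
      ⟨_, GMove.refl, by simp⟩ ?_ ?_ ?_
    · rintro s t hst ⟨θ, h1, h2⟩
      exact ⟨θ, h1, fun y hy => h2 y (hst hy)⟩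
    · rintro s t ⟨θ, h1, h2⟩ ⟨θ', h1', h2'⟩
      refine ⟨_, h1.comp h1', ?_⟩
      rintro y (hy | hy) hyX
      · exact h1.comp_lt_left h1' hyX (h2 y hy hyX)
      · exact h1.comp_lt_right h1' hyX (h2' y hy hyX)
    · intro x hx
      obtain ⟨θ, h1, W, hW, h2⟩ := hloc x hx
      exact ⟨W, mem_nhdsWithin_of_mem_nhds hW, θ, h1, h2⟩
  obtain ⟨θ, h1, h2⟩ := key
  exact ⟨θ, h1, fun y hy => h2 y hy (hKX hy)⟩

/-- The decrease is uniform on compact sets. -/
theorem GMove.exists_delta {θ : I → Y → Y} (h : GMove G F X A θ) (hF : ContinuousOn F X)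
    {K : Set Y} (hK : IsCompact K) (hKX : K ⊆ X) (hl : ∀ y ∈ K, F (θ 1 y) < F y) :
    ∃ δ > 0, ∀ y ∈ K, F (θ 1 y) ≤ F y - δ := by
  rcases K.eq_empty_or_nonempty with rfl | hne
  · exact ⟨1, one_pos, by simp⟩
  have hθ : ContinuousOn (fun y => θ 1 y) K := by
    have h1 : ContinuousOn (fun y : Y => ((1 : I), y)) K :=
      (continuous_const.prodMk continuous_id).continuousOn
    exact h.cont.comp h1 (fun y hy => ⟨mem_univ _, hKX hy⟩)
  have hc : ContinuousOn (fun y => F y - F (θ 1 y)) K :=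
    (hF.mono hKX).sub (hF.comp hθ (fun y hy => h.mapsX 1 y (hKX hy)))
  obtain ⟨x, hx, hmin⟩ := hK.exists_isMinOn hne hc
  refine ⟨F x - F (θ 1 x), sub_pos.2 (hl x hx), fun y hy => ?_⟩
  have := hmin hy
  simp only [mem_ofPred_eq] at this
  linarith

/-- If the first move absorbs a neighbourhood of `A` into `A`, then the composition with a move
decreasing `F` off this neighbourhood and off `U` sends every point of `X \ U` into `A` or lowers
`F` by a definite amount. -/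
theorem exists_descent {O U : Set Y} (hX : IsCompact X) (hF : ContinuousOn F X)
    (hO : IsOpen O) (hU : IsOpen U)
    {θ₀ : I → Y → Y} (h₀ : GMove G F X A θ₀) (hOA : ∀ x ∈ X, x ∈ O → θ₀ 1 x ∈ A)
    (hloc : ∀ x ∈ X, x ∉ O → x ∉ U → ∃ θ : I → Y → Y, GMove G F X A θ ∧
      ∃ W ∈ 𝓝 x, ∀ y ∈ W, y ∈ X → F (θ 1 y) < F y) :
    ∃ (θ : I → Y → Y) (δ : ℝ), 0 < δ ∧ GMove G F X A θ ∧
      ∀ x ∈ X, x ∉ U → θ 1 x ∈ A ∨ F (θ 1 x) ≤ F x - δ := by
  have hK : IsCompact (X \ (O ∪ U)) := hX.diff (hO.union hU)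
  obtain ⟨θ₁, h1, h2⟩ := exists_move_compact (G := G) (F := F) (X := X) (A := A) hK sdiff_subset
    (fun x hx => hloc x hx.1 (fun h => hx.2 (Or.inl h)) (fun h => hx.2 (Or.inr h)))
  have h3 := h₀.comp h1
  obtain ⟨δ, hδ, h4⟩ := h3.exists_delta hF hK sdiff_subset
    (fun y hy => h₀.comp_lt_right h1 hy.1 (h2 y hy))
  refine ⟨_, δ, hδ, h3, fun x hx hxU => ?_⟩
  by_cases hxO : x ∈ O
  · exact Or.inl (h1.mapsA 1 _ (hOA x hx hxO))
  · exact Or.inr (h4 x ⟨hx, fun h => h.elim hxO hxU⟩)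

end Vale.Agent.P265.H933
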