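import Mathlib.Data.Set.Card
import Mathlib.Data.ENat.Basic
import Mathlib.Analysis.Normed.Group.Constructions
import Vale.Agent.P265.H933.Moves

/-! The output of the Morse geometry: a compact piece of `N × ℝ^ν × ℝ^ν₂`, an invariant function,
finitely many orbits of standard cells and descending deformations off these cells. -/

open Set Topology unitInterval Metric

namespace Vale.Agent.P265.H933

/-- The space `ℝ^a × ℝ^b` with the supremum norm. -/
abbrev Wab (a b : ℕ) : Type := (Fin a → ℝ) × (Fin b → ℝ)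

/-- The quadratic form `-|u|² + |v|²` on `ℝ^a × ℝ^b` (Euclidean norms). -/
def qf {a b : ℕ} (w : Wab a b) : ℝ := -∑ i, w.1 i ^ 2 + ∑ i, w.2 i ^ 2

/-- The action of `G` on the first factor of `N × W`. -/
@[reducible] def actFst (G N W : Type*) [Group G] [MulAction G N] : MulAction G (N × W) where
  smul g y := (g • y.1, y.2)
  one_smul y := by
    show ((1 : G) • y.1, y.2) = y
    rw [one_smul]
  mul_smul g h y := by
    show ((g * h) • y.1, y.2) = (g • h • y.1, y.2)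
    rw [mul_smul]

/-- The compact piece `N × {|w| ≤ ρ}`. -/
def boxP (N : Type*) (ν ν₂ : ℕ) (ρ : ℝ) : Set (N × Wab ν ν₂) := {y | ‖y.2‖ ≤ ρ}

/-- Its exit set: some negative coordinate has absolute value `ρ`. -/
def boxA (N : Type*) (ν ν₂ : ℕ) (ρ : ℝ) : Set (N × Wab ν ν₂) :=
  {y | ‖y.2‖ ≤ ρ ∧ ∃ j, |y.2.1 j| = ρ}

/-- A `GMove` for the action on the first factor. -/
def FMove (G : Type*) {N : Type*} [TopologicalSpace N] [Group G] [MulAction G N] {W : Type*}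
    [TopologicalSpace W] (F : N × W → ℝ) (X A : Set (N × W)) (θ : I → N × W → N × W) : Prop :=
  letI := actFst G N W
  GMove G F X A θ

/-- The data extracted from a `G`-invariant Morse function on `N × Z`, quadratic at infinity;
`num j` is the number of its critical orbits of index `j`. -/
structure CellModel (G N : Type) [Group G] [MulAction G N] [MetricSpace N] (num : ℕ → ℕ∞) where
  ν : ℕ
  ν₂ : ℕ
  ρ : ℝ
  ρ_pos : 0 < ρ
  F : N × Wab ν ν₂ → ℝ
  contF : Continuous F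
  invF : ∀ (g : G) (x : N) (w : Wab ν ν₂), F (g • x, w) = F (x, w)
  ι : Type
  fin : Fintype ι
  c : ι → ℝ
  c_inj : Function.Injective c
  lam : ι → ℕ
  mu : ι → ℕ
  r : ℝ
  r_pos : 0 < r
  ψ : ∀ i, Wab (lam i) (mu i) → N × Wab ν ν₂
  ψ_cont : ∀ i, ContinuousOn (ψ i) (closedBall 0 (2 * r))
  ψ_inj : ∀ i, InjOn (ψ i) (closedBall 0 (2 * r))
  ψ_open : ∀ i s, s ≤ 2 * r → IsOpen (ψ i '' ball 0 s)
  ψ_mem : ∀ i, ∀ w ∈ closedBall (0 : Wab (lam i) (mu i)) (2 * r),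
    ‖(ψ i w).2‖ ≤ ρ ∧ ∀ j, |(ψ i w).2.1 j| < ρ
  ψ_F : ∀ i, ∀ w ∈ closedBall (0 : Wab (lam i) (mu i)) (2 * r), F (ψ i w) = c i + qf w
  ψ_disj : ∀ i j (g h : G), ∀ w ∈ closedBall (0 : Wab (lam i) (mu i)) (2 * r),
    ∀ w' ∈ closedBall (0 : Wab (lam j) (mu j)) (2 * r),
    (g • (ψ i w).1, (ψ i w).2) = (h • (ψ j w').1, (ψ j w').2) → i = j ∧ g = h
  descent : ∀ s, 0 < s → s ≤ r → ∃ (θ : I → N × Wab ν ν₂ → N × Wab ν ν₂) (δ : ℝ), 0 < δ ∧
    FMove G F (boxP N ν ν₂ ρ) (boxA N ν ν₂ ρ) θ ∧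
    ∀ y ∈ boxP N ν ν₂ ρ,
      (∀ i (g : G), ∀ w ∈ ball (0 : Wab (lam i) (mu i)) s, y ≠ (g • (ψ i w).1, (ψ i w).2)) →
      θ 1 y ∈ boxA N ν ν₂ ρ ∨ F (θ 1 y) ≤ F y - δ
  count : ∀ j, {i | lam i = j}.encard ≤ num j

end Vale.Agent.P265.H933
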