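import Mathlib.Analysis.Normed.Group.Constructions
import Mathlib.Topology.Algebra.Order.LiminfLimsup
import Vale.Agent.P265.H933.Cell

/-! The wall move on `N × ℝ^ν × ℝ^ν₂`: where the function equals the standard quadratic form, the
negative directions are stretched and the positive ones contracted, up to the wall `|u_j| = ρ`. -/

open Set Topology unitInterval Metric

set_option linter.unusedSectionVars false

namespace Vale.Agent.P265.H933

section Clip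

/-- Truncation to `[-ρ, ρ]`. -/
def clip (ρ x : ℝ) : ℝ := max (-ρ) (min ρ x)

variable {ρ x b : ℝ}

theorem continuous_clip (ρ : ℝ) : Continuous (clip ρ) := by
  unfold clip; fun_prop

theorem abs_clip (hρ : 0 ≤ ρ) (x : ℝ) : |clip ρ x| = min ρ |x| := by
  unfold clip
  rcases le_total 0 x with hx | hx
  · rw [abs_of_nonneg hx, max_eq_right (by linarith [le_min hρ hx]),
      abs_of_nonneg (le_min hρ hx)]
  · rw [abs_of_nonpos hx, min_eq_right (hx.trans hρ), max_def]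
    split_ifs with h
    · rw [abs_of_nonpos hx, min_eq_right (by linarith)]
    · rw [abs_neg, abs_of_nonneg hρ, min_eq_left (by linarith)]

theorem clip_of_abs_le (h : |x| ≤ ρ) : clip ρ x = x := by
  obtain ⟨h1, h2⟩ := abs_le.1 h
  unfold clip
  rw [min_eq_right h2, max_eq_right h1]

theorem sq_le_clip (h : |x| ≤ ρ) (hb : 0 ≤ b) : x ^ 2 ≤ clip ρ ((1 + b) * x) ^ 2 := by
  rw [sq_le_sq, abs_clip ((abs_nonneg x).trans h), abs_mul, abs_of_nonneg (by linarith : 0 ≤ 1 + b)]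
  exact le_min h (by nlinarith [abs_nonneg x])

theorem sq_lt_clip (h : |x| < ρ) (hx : x ≠ 0) (hb : 0 < b) :
    x ^ 2 < clip ρ ((1 + b) * x) ^ 2 := by
  rw [sq_lt_sq, abs_clip ((abs_nonneg x).trans h.le), abs_mul,
    abs_of_nonneg (by linarith : 0 ≤ 1 + b)]
  exact lt_min h (by nlinarith [abs_pos.2 hx])

theorem clip_eq_self_of_abs_eq (h : |x| = ρ) (hb : 0 ≤ b) : clip ρ ((1 + b) * x) = x := by
  unfold clip
  have hρ : 0 ≤ ρ := h ▸ abs_nonneg x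
  rcases le_total 0 x with hx | hx
  · rw [abs_of_nonneg hx] at h
    rw [min_eq_left (by nlinarith), max_eq_right (by linarith), h]
  · rw [abs_of_nonpos hx] at h
    rw [min_eq_right (by nlinarith), max_eq_left (by nlinarith), ← h, neg_neg]

end Clip

section Stretch

variable {ν ν₂ : ℕ} {ρ b : ℝ}

/-- Stretch the negative directions by `1 + b` up to the wall, contract the positive ones by
`1 - b`. -/
def stretch (ρ b : ℝ) (w : Wab ν ν₂) : Wab ν ν₂ :=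
  (fun j => clip ρ ((1 + b) * w.1 j), fun j => (1 - b) * w.2 j)

theorem continuous_stretch (ρ : ℝ) :
    Continuous (fun p : ℝ × Wab ν ν₂ => stretch ρ p.1 p.2) := by
  unfold stretch
  have := continuous_clip ρ
  fun_prop

theorem norm_wab_le {w : Wab ν ν₂} {c : ℝ} (hc : 0 ≤ c) :
    ‖w‖ ≤ c ↔ (∀ j, |w.1 j| ≤ c) ∧ ∀ j, |w.2 j| ≤ c := by
  rw [Prod.norm_def, max_le_iff, pi_norm_le_iff_of_nonneg hc, pi_norm_le_iff_of_nonneg hc]
  simp only [Real.norm_eq_abs]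

theorem norm_stretch_le (hb : 0 ≤ b) (hb1 : b ≤ 1) {w : Wab ν ν₂} (hw : ‖w‖ ≤ ρ) :
    ‖stretch ρ b w‖ ≤ ρ := by
  have hρ : 0 ≤ ρ := (norm_nonneg _).trans hw
  rw [norm_wab_le hρ] at hw ⊢
  refine ⟨fun j => ?_, fun j => ?_⟩
  · show |clip ρ ((1 + b) * w.1 j)| ≤ ρ
    rw [abs_clip hρ]; exact min_le_left _ _
  · show |(1 - b) * w.2 j| ≤ ρ
    rw [abs_mul, abs_of_nonneg (by linarith)]
    nlinarith [hw.2 j, abs_nonneg (w.2 j)]

theorem le_norm_stretch (hb : 0 ≤ b) (hb1 : b ≤ 1) {w : Wab ν ν₂} (hw : ‖w‖ ≤ ρ) :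
    (1 - b) * ‖w‖ ≤ ‖stretch ρ b w‖ := by
  have hρ : 0 ≤ ρ := (norm_nonneg _).trans hw
  have h2 := norm_nonneg (stretch ρ b w)
  have h3 := (norm_wab_le h2).1 (le_refl ‖stretch ρ b w‖)
  rcases eq_or_lt_of_le hb1 with rfl | hb1
  · simp
  rw [← le_div_iff₀' (by linarith), norm_wab_le (by positivity)]
  have hw' := (norm_wab_le hρ).1 hw
  refine ⟨fun j => ?_, fun j => ?_⟩
  · have h4 := h3.1 j
    have h5 : |w.1 j| ≤ |clip ρ ((1 + b) * w.1 j)| := by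
      rw [← sq_le_sq]; exact sq_le_clip (hw'.1 j) hb
    have h6 : |w.1 j| ≤ ‖stretch ρ b w‖ := h5.trans h4
    rw [le_div_iff₀' (by linarith)]
    nlinarith [abs_nonneg (w.1 j)]
  · have h4 := h3.2 j
    have h5 : |(stretch ρ b w).2 j| = (1 - b) * |w.2 j| := by
      show |(1 - b) * w.2 j| = _
      rw [abs_mul, abs_of_nonneg (by linarith)]
    rw [h5] at h4
    rw [le_div_iff₀' (by linarith)]
    exact h4

theorem stretch_zero {w : Wab ν ν₂} (hw : ‖w‖ ≤ ρ) : stretch ρ 0 w = w := by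
  have hρ : 0 ≤ ρ := (norm_nonneg _).trans hw
  rw [norm_wab_le hρ] at hw
  refine Prod.ext (funext fun j => ?_) (funext fun j => ?_)
  · show clip ρ ((1 + 0) * w.1 j) = w.1 j
    rw [add_zero, one_mul, clip_of_abs_le (hw.1 j)]
  · show (1 - 0) * w.2 j = w.2 j
    ring

theorem qf_stretch_le (hb : 0 ≤ b) (hb1 : b ≤ 1) {w : Wab ν ν₂} (hw : ‖w‖ ≤ ρ) :
    qf (stretch ρ b w) ≤ qf w := by
  have hρ : 0 ≤ ρ := (norm_nonneg _).trans hw
  rw [norm_wab_le hρ] at hw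
  unfold qf
  refine add_le_add (neg_le_neg ?_) ?_
  · exact Finset.sum_le_sum (fun j _ => sq_le_clip (hw.1 j) hb)
  · refine Finset.sum_le_sum (fun j _ => ?_)
    show ((1 - b) * w.2 j) ^ 2 ≤ w.2 j ^ 2
    rw [mul_pow]
    have : (1 - b) ^ 2 ≤ 1 := by nlinarith
    nlinarith [sq_nonneg (w.2 j)]

theorem qf_stretch_lt (hb : 0 < b) (hb1 : b ≤ 1) {w : Wab ν ν₂} (hw : ‖w‖ ≤ ρ)
    (h : (∃ j, w.1 j ≠ 0 ∧ |w.1 j| < ρ) ∨ ∃ j, w.2 j ≠ 0) :
    qf (stretch ρ b w) < qf w := by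
  have hρ : 0 ≤ ρ := (norm_nonneg _).trans hw
  rw [norm_wab_le hρ] at hw
  have h1 : ∀ j ∈ Finset.univ, w.1 j ^ 2 ≤ (stretch ρ b w).1 j ^ 2 :=
    fun j _ => sq_le_clip (hw.1 j) hb.le
  have h2 : ∀ j ∈ Finset.univ, (stretch ρ b w).2 j ^ 2 ≤ w.2 j ^ 2 := by
    intro j _
    show ((1 - b) * w.2 j) ^ 2 ≤ w.2 j ^ 2
    rw [mul_pow]
    have : (1 - b) ^ 2 ≤ 1 := by nlinarith
    nlinarith [sq_nonneg (w.2 j)]
  unfold qf
  rcases h with ⟨j, hj0, hj⟩ | ⟨j, hj⟩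
  · refine add_lt_add_of_lt_of_le (neg_lt_neg ?_) (Finset.sum_le_sum h2)
    exact Finset.sum_lt_sum h1 ⟨j, Finset.mem_univ _, sq_lt_clip hj hj0 hb⟩
  · refine add_lt_add_of_le_of_lt (neg_le_neg (Finset.sum_le_sum h1)) ?_
    refine Finset.sum_lt_sum h2 ⟨j, Finset.mem_univ _, ?_⟩
    show ((1 - b) * w.2 j) ^ 2 < w.2 j ^ 2
    rw [mul_pow]
    have h3 : (1 - b) ^ 2 < 1 := by nlinarith
    have h4 : 0 < w.2 j ^ 2 := by positivity
    nlinarith

theorem stretch_eq_self (hb : 0 ≤ b) {w : Wab ν ν₂} (hw : ‖w‖ ≤ ρ)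
    (h : ¬ ((∃ j, w.1 j ≠ 0 ∧ |w.1 j| < ρ) ∨ ∃ j, w.2 j ≠ 0)) : stretch ρ b w = w := by
  have hρ : 0 ≤ ρ := (norm_nonneg _).trans hw
  rw [norm_wab_le hρ] at hw
  push Not at h
  obtain ⟨h1, h2⟩ := h
  refine Prod.ext (funext fun j => ?_) (funext fun j => ?_)
  · show clip ρ ((1 + b) * w.1 j) = w.1 j
    by_cases h0 : w.1 j = 0
    · rw [h0, mul_zero, clip_of_abs_le (by simpa using hρ)]
    · exact clip_eq_self_of_abs_eq (le_antisymm (hw.1 j) (h1 j h0)) hb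
  · show (1 - b) * w.2 j = w.2 j
    rw [h2 j]; ring

theorem stretch_wall (hb : 0 ≤ b) {w : Wab ν ν₂} {j : Fin ν} (h : ρ ≤ (1 + b) * |w.1 j|)
    (hρ : 0 ≤ ρ) : |(stretch ρ b w).1 j| = ρ := by
  show |clip ρ ((1 + b) * w.1 j)| = ρ
  rw [abs_clip hρ, abs_mul, abs_of_nonneg (by linarith), min_eq_left h]

end Stretch

section Wall

variable {N : Type*} [TopologicalSpace N] {G : Type*} [Group G] [MulAction G N]
  {ν ν₂ : ℕ} {ρ R : ℝ} {F : N × Wab ν ν₂ → ℝ}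

/-- The cut-off of the wall move. -/
noncomputable def wcut (R : ℝ) (w : Wab ν ν₂) : ℝ := min 1 (max 0 (‖w‖ - (R + 1))) / (R + 1)

theorem continuous_wcut (R : ℝ) : Continuous (wcut R : Wab ν ν₂ → ℝ) := by
  unfold wcut; fun_prop

theorem wcut_nonneg (hR : 0 ≤ R) (w : Wab ν ν₂) : 0 ≤ wcut R w := by
  unfold wcut
  exact div_nonneg (le_min zero_le_one (le_max_left _ _)) (by linarith)

theorem wcut_le (hR : 0 ≤ R) (w : Wab ν ν₂) : wcut R w ≤ 1 / (R + 1) := by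
  unfold wcut
  exact div_le_div_of_nonneg_right (min_le_left _ _) (by linarith)

theorem wcut_le_one (hR : 0 ≤ R) (w : Wab ν ν₂) : wcut R w ≤ 1 := by
  refine (wcut_le hR w).trans ?_
  rw [div_le_one (by linarith)]; linarith

theorem wcut_eq_zero {w : Wab ν ν₂} (h : ‖w‖ ≤ R + 1) : wcut R w = 0 := by
  unfold wcut
  rw [max_eq_left (by linarith)]
  simp

theorem wcut_pos (hR : 0 ≤ R) {w : Wab ν ν₂} (h : R + 1 < ‖w‖) : 0 < wcut R w := by
  unfold wcut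
  refine div_pos (lt_min one_pos (lt_max_of_lt_right (by linarith))) (by linarith)

/-- The wall move. -/
noncomputable def wall (ρ R : ℝ) (s : I) (y : N × Wab ν ν₂) : N × Wab ν ν₂ :=
  (y.1, stretch ρ ((s : ℝ) * wcut R y.2) y.2)

theorem wall_param (hR : 0 ≤ R) (s : I) (w : Wab ν ν₂) :
    0 ≤ (s : ℝ) * wcut R w ∧ (s : ℝ) * wcut R w ≤ 1 / (R + 1) ∧ (s : ℝ) * wcut R w ≤ 1 := by
  have h1 := wcut_nonneg hR w
  have h2 := wcut_le hR w
  have h3 := wcut_le_one hR w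
  refine ⟨mul_nonneg s.2.1 h1, ?_, ?_⟩
  · nlinarith [s.2.2, s.2.1]
  · nlinarith [s.2.2, s.2.1]

theorem norm_wall (hR : 0 < R) {s : I} {w : Wab ν ν₂} (hw : ‖w‖ ≤ ρ) (h : R + 1 < ‖w‖) :
    R ≤ ‖stretch ρ ((s : ℝ) * wcut R w) w‖ := by
  obtain ⟨h1, h2, h3⟩ := wall_param hR.le s w
  refine le_trans ?_ (le_norm_stretch h1 h3 hw)
  have h4 : R / (R + 1) ≤ 1 - (s : ℝ) * wcut R w := by
    have : R / (R + 1) = 1 - 1 / (R + 1) := by field_simp; ring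
    rw [this]; linarith
  have h5 : R / (R + 1) * (R + 1) = R := by field_simp
  calc R = R / (R + 1) * (R + 1) := h5.symm
    _ ≤ (1 - (s : ℝ) * wcut R w) * ‖w‖ :=
      mul_le_mul h4 h.le (by linarith) (le_trans (by positivity) h4)

theorem wall_le (hR : 0 < R) (hF : ∀ x w, R ≤ ‖w‖ → F (x, w) = qf w) {s : I}
    {y : N × Wab ν ν₂} (hy : ‖y.2‖ ≤ ρ) : F (wall ρ R s y) ≤ F y := by
  obtain ⟨x, w⟩ := y
  obtain ⟨h1, h2, h3⟩ := wall_param hR.le s w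
  rcases le_or_gt ‖w‖ (R + 1) with h | h
  · have h4 : wall ρ R s (x, w) = (x, w) := by
      unfold wall
      rw [wcut_eq_zero h, mul_zero, stretch_zero hy]
    rw [h4]
  · show F (x, stretch ρ ((s : ℝ) * wcut R w) w) ≤ F (x, w)
    rw [hF x _ (norm_wall hR hy h), hF x w (by linarith)]
    exact qf_stretch_le h1 h3 hy

theorem wall_strict (hR : 0 < R) (hF : ∀ x w, R ≤ ‖w‖ → F (x, w) = qf w)
    {y : N × Wab ν ν₂} (hy : ‖y.2‖ ≤ ρ) :
    wall ρ R 1 y = y ∨ F (wall ρ R 1 y) < F y := by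
  obtain ⟨x, w⟩ := y
  obtain ⟨h1, h2, h3⟩ := wall_param hR.le 1 w
  rcases le_or_gt ‖w‖ (R + 1) with h | h
  · left
    unfold wall
    rw [wcut_eq_zero h, mul_zero, stretch_zero hy]
  · by_cases hw : (∃ j, w.1 j ≠ 0 ∧ |w.1 j| < ρ) ∨ ∃ j, w.2 j ≠ 0
    · right
      show F (x, stretch ρ (((1 : I) : ℝ) * wcut R w) w) < F (x, w)
      rw [hF x _ (norm_wall hR hy h), hF x w (by linarith)]
      refine qf_stretch_lt ?_ h3 hy hw
      simpa using wcut_pos hR.le h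
    · left
      unfold wall
      rw [stretch_eq_self h1 hy hw]

theorem wall_lt (hR : 0 < R) (hF : ∀ x w, R ≤ ‖w‖ → F (x, w) = qf w)
    {y : N × Wab ν ν₂} (hy : ‖y.2‖ ≤ ρ) (hyA : y ∉ boxA N ν ν₂ ρ) (h : R + 1 < ‖y.2‖) :
    F (wall ρ R 1 y) < F y := by
  obtain ⟨x, w⟩ := y
  obtain ⟨h1, h2, h3⟩ := wall_param hR.le 1 w
  have hw : (∃ j, w.1 j ≠ 0 ∧ |w.1 j| < ρ) ∨ ∃ j, w.2 j ≠ 0 := by
    by_contra hcon
    push Not at hcon
    have hρ : 0 ≤ ρ := (norm_nonneg _).trans hy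
    have h5 : ‖w‖ ≤ 0 := by
      rw [norm_wab_le le_rfl]
      refine ⟨fun j => ?_, fun j => by rw [hcon.2 j]; simp⟩
      by_cases h0 : w.1 j = 0
      · rw [h0]; simp
      · exact absurd ⟨hy, j, le_antisymm (((norm_wab_le hρ).1 hy).1 j) (hcon.1 j h0)⟩ hyA
    have h6 : R + 1 < ‖w‖ := h
    linarith
  show F (x, stretch ρ (((1 : I) : ℝ) * wcut R w) w) < F (x, w)
  rw [hF x _ (norm_wall hR hy h), hF x w (by linarith [show R + 1 < ‖w‖ from h])]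
  refine qf_stretch_lt ?_ h3 hy hw
  simpa using wcut_pos hR.le h

theorem fmove_wall (hR : 0 < R) (hF : ∀ x w, R ≤ ‖w‖ → F (x, w) = qf w) :
    FMove G F (boxP N ν ν₂ ρ) (boxA N ν ν₂ ρ) (wall ρ R) := by
  let _ := actFst G N (Wab ν ν₂)
  refine ⟨?_, ?_, ?_, ?_, ?_, ?_, ?_⟩
  · have h1 : Continuous (fun p : I × (N × Wab ν ν₂) => (wall ρ R p.1 p.2 : N × Wab ν ν₂)) := by
      unfold wall
      have h2 := continuous_wcut (ν := ν) (ν₂ := ν₂) R
      have h3 : Continuous (fun p : I × (N × Wab ν ν₂) => (((p.1 : ℝ) * wcut R p.2.2), p.2.2)) := by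
        fun_prop
      exact (continuous_fst.comp continuous_snd).prodMk ((continuous_stretch ρ).comp h3)
    exact h1.continuousOn
  · rintro ⟨x, w⟩ hw
    show (x, stretch ρ (((0 : I) : ℝ) * wcut R w) w) = (x, w)
    rw [Icc.coe_zero, zero_mul, stretch_zero hw]
  · rintro g s ⟨x, w⟩ _
    rfl
  · rintro s ⟨x, w⟩ hw
    obtain ⟨h1, h2, h3⟩ := wall_param hR.le s w
    exact norm_stretch_le h1 h3 hw
  · rintro s ⟨x, w⟩ ⟨hw, j, hj⟩
    obtain ⟨h1, h2, h3⟩ := wall_param hR.le s w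
    have hρ : 0 ≤ ρ := (norm_nonneg _).trans hw
    refine ⟨norm_stretch_le h1 h3 hw, j, stretch_wall h1 ?_ hρ⟩
    have hj' : |w.1 j| = ρ := hj
    rw [hj']
    nlinarith
  · intro s y hy
    exact wall_le hR hF hy
  · intro y hy
    exact wall_strict hR hF hy

/-- The set of points which the wall move sends to the wall. -/
def wallO (N : Type*) (ν ν₂ : ℕ) (ρ R : ℝ) : Set (N × Wab ν ν₂) :=
  {y | ∃ j, ρ < (1 + wcut R y.2) * |y.2.1 j|}

theorem isOpen_wallO : IsOpen (wallO N ν ν₂ ρ R) := by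
  have h2 := continuous_wcut (ν := ν) (ν₂ := ν₂) R
  have : wallO N ν ν₂ ρ R = ⋃ j, {y | ρ < (1 + wcut R y.2) * |y.2.1 j|} := by
    ext y; simp [wallO]
  rw [this]
  refine isOpen_iUnion (fun j => isOpen_lt continuous_const ?_)
  fun_prop

theorem wallO_absorb (hR : 0 < R) {y : N × Wab ν ν₂} (hy : y ∈ boxP N ν ν₂ ρ)
    (h : y ∈ wallO N ν ν₂ ρ R) : wall ρ R 1 y ∈ boxA N ν ν₂ ρ := by
  obtain ⟨x, w⟩ := y
  obtain ⟨j, hj⟩ := h
  obtain ⟨h1, h2, h3⟩ := wall_param hR.le 1 w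
  have hw : ‖w‖ ≤ ρ := hy
  have hρ : 0 ≤ ρ := (norm_nonneg _).trans hw
  refine ⟨norm_stretch_le h1 h3 hw, j, stretch_wall h1 ?_ hρ⟩
  simpa using le_of_lt hj

theorem boxA_subset_wallO (hR : 0 ≤ R) (hρ : R + 1 < ρ) :
    boxA N ν ν₂ ρ ⊆ wallO N ν ν₂ ρ R := by
  rintro ⟨x, w⟩ ⟨hw, j, hj⟩
  refine ⟨j, ?_⟩
  have hj' : |w.1 j| = ρ := hj
  have h1 : ρ ≤ ‖w‖ := by
    have := (norm_wab_le (norm_nonneg w)).1 le_rfl
    rw [← hj']; exact this.1 j
  have h2 : 0 < wcut R w := wcut_pos hR (by linarith)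
  show ρ < (1 + wcut R w) * |w.1 j|
  rw [hj']
  nlinarith

theorem isClosed_boxA : IsClosed (boxA N ν ν₂ ρ) := by
  have : boxA N ν ν₂ ρ = {y | ‖y.2‖ ≤ ρ} ∩ ⋃ j, {y | |y.2.1 j| = ρ} := by
    ext y; simp [boxA]
  rw [this]
  refine (isClosed_le (by fun_prop) continuous_const).inter ?_
  exact isClosed_iUnion_of_finite (fun j => isClosed_eq (by fun_prop) continuous_const)

theorem isCompact_boxP [CompactSpace N] : IsCompact (boxP N ν ν₂ ρ) := by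
  have : boxP N ν ν₂ ρ = univ ×ˢ closedBall (0 : Wab ν ν₂) ρ := by
    ext y; simp [boxP]
  rw [this]
  exact isCompact_univ.prod (isCompact_closedBall _ _)

end Wall

end Vale.Agent.P265.H933
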