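import Mathlib.Topology.Homeomorph.Lemmas
import Mathlib.Topology.OpenPartialHomeomorph.Composition
import Mathlib.Topology.OpenPartialHomeomorph.Constructions
import Mathlib.Analysis.Calculus.FDeriv.Equiv
import Vale.Agent.P265.H933.EquivMove
import Vale.Agent.P265.H933.Wall

/-! Points at which a function is regular in some chart, and the descent off a neighbourhood of
the other points. -/

open Set Topology unitInterval Metric Filter

set_option linter.unusedSectionVars false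

namespace Vale.Agent.P265.H933

section Regular

variable {Y : Type*} [TopologicalSpace Y]
  {E : Type*} [NormedAddCommGroup E] [NormedSpace ℝ E]
  {E' : Type*} [NormedAddCommGroup E'] [NormedSpace ℝ E']

variable (E) in
/-- `F` is continuously differentiable with nonzero derivative at `y`, in some chart. -/
def RegularAt (F : Y → ℝ) (y : Y) : Prop :=
  ∃ e : OpenPartialHomeomorph Y E, y ∈ e.source ∧ ContDiffAt ℝ 1 (F ∘ e.symm) (e y) ∧
    fderiv ℝ (F ∘ e.symm) (e y) ≠ 0

variable {F F' : Y → ℝ} {y : Y}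

/-- In the chart, functions which agree near `y` agree near `e y`. -/
theorem eventuallyEq_chart (h : F =ᶠ[𝓝 y] F') (e : OpenPartialHomeomorph Y E)
    (hy : y ∈ e.source) : F ∘ e.symm =ᶠ[𝓝 (e y)] F' ∘ e.symm := by
  have h1 : Tendsto e.symm (𝓝 (e y)) (𝓝 y) := by
    have := e.continuousAt_symm (e.map_source hy)
    rw [ContinuousAt, e.left_inv hy] at this
    exact this
  exact h1.eventually h

theorem RegularAt.congr (h : F =ᶠ[𝓝 y] F') (hF : RegularAt E F y) : RegularAt E F' y := by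
  obtain ⟨e, hy, h1, h2⟩ := hF
  have h3 := eventuallyEq_chart h e hy
  exact ⟨e, hy, h1.congr_of_eventuallyEq h3.symm, by rwa [← h3.fderiv_eq]⟩

theorem regular_eventually {f : E → ℝ} {ξ : E} (h1 : ContDiffAt ℝ 1 f ξ)
    (h2 : fderiv ℝ f ξ ≠ 0) : ∀ᶠ η in 𝓝 ξ, ContDiffAt ℝ 1 f η ∧ fderiv ℝ f η ≠ 0 := by
  have h3 : ContinuousAt (fderiv ℝ f) ξ := (h1.fderiv_right (m := 0) (by norm_num)).continuousAt
  exact (h1.eventually (by simp)).and (h3.eventually_ne h2)

theorem regularAt_eventually (e : OpenPartialHomeomorph Y E) (hy : y ∈ e.source)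
    {p : E → Prop} (h : ∀ᶠ η in 𝓝 (e y), p η) : ∀ᶠ z in 𝓝 y, z ∈ e.source ∧ p (e z) :=
  Filter.Eventually.and (e.open_source.mem_nhds hy) ((e.continuousAt hy).eventually h)

theorem isOpen_regular (F : Y → ℝ) : IsOpen {y | RegularAt E F y} := by
  rw [isOpen_iff_mem_nhds]
  rintro y ⟨e, hy, h1, h2⟩
  filter_upwards [regularAt_eventually e hy (regular_eventually h1 h2)] with z hz
  exact ⟨e, hz.1, hz.2.1, hz.2.2⟩

theorem RegularAt.comp_homeo (h : Y ≃ₜ Y) (hF : ∀ z, F (h z) = F z) (hy : RegularAt E F (h y)) :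
    RegularAt E F y := by
  obtain ⟨e, hy, h1, h2⟩ := hy
  have h3 : F ∘ (h.toOpenPartialHomeomorph.trans e).symm = F ∘ e.symm := by
    funext ξ
    show F (h.symm (e.symm ξ)) = F (e.symm ξ)
    rw [← hF, h.apply_symm_apply]
  refine ⟨h.toOpenPartialHomeomorph.trans e, ?_, ?_, ?_⟩
  · simpa using hy
  · rw [h3]; exact h1
  · rw [h3]; exact h2

/-- Change of the model space by a linear isomorphism. -/
theorem RegularAt.of_chart (L : E' ≃L[ℝ] E) (e : OpenPartialHomeomorph Y E') (hy : y ∈ e.source)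
    (h1 : ContDiffAt ℝ 1 (F ∘ e.symm) (e y)) (h2 : fderiv ℝ (F ∘ e.symm) (e y) ≠ 0) :
    RegularAt E F y := by
  refine ⟨e.trans L.toHomeomorph.toOpenPartialHomeomorph, by simpa using hy, ?_, ?_⟩
  · have h3 : F ∘ (e.trans L.toHomeomorph.toOpenPartialHomeomorph).symm =
        (F ∘ e.symm) ∘ L.symm := rfl
    rw [h3]
    have h4 : (e.trans L.toHomeomorph.toOpenPartialHomeomorph) y = L (e y) := rfl
    rw [h4]
    refine ContDiffAt.comp _ ?_ L.symm.contDiff.contDiffAt
    rwa [L.symm_apply_apply]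
  · have h3 : F ∘ (e.trans L.toHomeomorph.toOpenPartialHomeomorph).symm =
        (F ∘ e.symm) ∘ L.symm := rfl
    have h4 : (e.trans L.toHomeomorph.toOpenPartialHomeomorph) y = L (e y) := rfl
    rw [h3, h4, ContinuousLinearEquiv.comp_right_fderiv, L.symm_apply_apply]
    intro h5
    apply h2
    ext v
    have h6 := DFunLike.congr_fun h5 (L v)
    simpa using h6

end Regular

section Descent

variable {N : Type*} [TopologicalSpace N] {G : Type*} [Group G] [MulAction G N]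
  {W : Type*} [TopologicalSpace W]

theorem continuousConstSMul_actFst [ContinuousConstSMul G N] :
    @ContinuousConstSMul G (N × W) _ (actFst G N W).toSMul := by
  let _ := actFst G N W
  exact ⟨fun g => ((continuous_const_smul g).comp continuous_fst).prodMk continuous_snd⟩

variable {E : Type*} [NormedAddCommGroup E] [NormedSpace ℝ E]
  {ν ν₂ : ℕ} {ρ R : ℝ} {F : N × Wab ν ν₂ → ℝ}

/-- If `F` is regular off `U` in the region `‖w‖ ≤ R + 1`, and equal to the quadratic form for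
`‖w‖ ≥ R`, every point off `U` descends, or reaches the wall. -/
theorem fdescent [CompactSpace N] [T2Space N] [Finite G] [ContinuousConstSMul G N]
    [ProperSpace E] (hfree : ∀ (g : G) (x : N), g • x = x → g = 1) (hR : 0 < R)
    (hρ : R + 1 < ρ) (hF : ∀ x w, R ≤ ‖w‖ → F (x, w) = qf w) (hcont : Continuous F)
    (hinv : ∀ (g : G) (x : N) (w : Wab ν ν₂), F (g • x, w) = F (x, w))
    {U : Set (N × Wab ν ν₂)} (hU : IsOpen U)
    (hreg : ∀ y : N × Wab ν ν₂, ‖y.2‖ ≤ R + 1 → y ∉ U → RegularAt E F y) :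
    ∃ (θ : I → N × Wab ν ν₂ → N × Wab ν ν₂) (δ : ℝ), 0 < δ ∧
      FMove G F (boxP N ν ν₂ ρ) (boxA N ν ν₂ ρ) θ ∧
      ∀ y ∈ boxP N ν ν₂ ρ, y ∉ U → θ 1 y ∈ boxA N ν ν₂ ρ ∨ F (θ 1 y) ≤ F y - δ := by
  let _ := actFst G N (Wab ν ν₂)
  have _ : ContinuousConstSMul G (N × Wab ν ν₂) := continuousConstSMul_actFst
  refine exists_descent (G := G) isCompact_boxP hcont.continuousOn
    (isOpen_wallO (N := N) (ν := ν) (ν₂ := ν₂) (ρ := ρ) (R := R)) hU (fmove_wall hR hF)
    (fun x hx h => wallO_absorb hR hx h) ?_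
  intro y hyP hyO hyU
  have hyA : y ∉ boxA N ν ν₂ ρ := fun h => hyO (boxA_subset_wallO hR.le hρ h)
  have hAc : (boxA N ν ν₂ ρ)ᶜ ∈ 𝓝 y := isClosed_boxA.isOpen_compl.mem_nhds hyA
  rcases le_or_gt ‖y.2‖ (R + 1) with h | h
  · obtain ⟨e, hy, h1, h2⟩ := hreg y h hyU
    refine exists_local_move (G := G) ?_ hAc ?_ ?_ ?_ ?_ e hy h1 h2
    · have h3 : IsOpen {y : N × Wab ν ν₂ | ‖y.2‖ < ρ} := isOpen_lt (by fun_prop) continuous_const
      filter_upwards [h3.mem_nhds (show ‖y.2‖ < ρ by linarith)] with z hz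
      exact le_of_lt hz
    · rintro g ⟨x, w⟩ hx; exact hx
    · rintro g ⟨x, w⟩ hx; exact hx
    · rintro g ⟨x, w⟩; exact hinv g x w
    · intro g hg h3
      exact hg (hfree g y.1 (congrArg Prod.fst h3))
  · refine ⟨wall ρ R, fmove_wall hR hF, {z | R + 1 < ‖z.2‖} ∩ (boxA N ν ν₂ ρ)ᶜ, ?_, ?_⟩
    · have h3 : IsOpen {y : N × Wab ν ν₂ | R + 1 < ‖y.2‖} :=
        isOpen_lt continuous_const (by fun_prop)
      exact inter_mem (h3.mem_nhds h) hAc
    · rintro z ⟨hz1, hz2⟩ hzP
      exact wall_lt hR hF hzP hz2 hz1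

end Descent

end Vale.Agent.P265.H933
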