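import Mathlib.Data.ZMod.Basic
import Mathlib.Dynamics.PeriodicPts.Defs
import Mathlib.Topology.OpenPartialHomeomorph.Constructions
import Vale.Agent.P265.H336.Iface
import Vale.Agent.P265.H933.Regular
import Vale.Agent.P265.H934.Standard

/-! Descents near noncritical points, on the cyclic cover. -/

open Set Topology unitInterval Metric Filter Manifold
open scoped ContDiff

set_option linter.unusedSectionVars false

namespace Vale.Agent.P265.H933

open Vale.Agent.P265.AS

section Cyclic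

variable {M N : Type} [MetricSpace M] [MetricSpace N] {n : ℕ} (C : CycCover M N n)

theorem iter_mod (m : ℕ) (x : N) : C.g^[m % n] x = C.g^[m] x :=
  Function.IsPeriodicPt.iterate_mod_apply (C.iter x) m

/-- The action of the cyclic group `ℤ/n` on the cover. -/
@[reducible] noncomputable def cycAct [NeZero n] : MulAction (Multiplicative (ZMod n)) N where
  smul i x := C.g^[(Multiplicative.toAdd i).val] x
  one_smul x := by
    show C.g^[(0 : ZMod n).val] x = x
    rw [ZMod.val_zero]; rfl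
  mul_smul i j x := by
    show C.g^[(Multiplicative.toAdd i + Multiplicative.toAdd j).val] x =
      C.g^[(Multiplicative.toAdd i).val] (C.g^[(Multiplicative.toAdd j).val] x)
    rw [ZMod.val_add, iter_mod C, Function.iterate_add_apply]

theorem cycAct_one [NeZero n] (x : N) :
    C.g^[(Multiplicative.toAdd (Multiplicative.ofAdd (1 : ZMod n))).val] x = C.g x := by
  rw [toAdd_ofAdd, ZMod.val_one_eq_one_mod, iter_mod C]
  rfl

theorem π_iter (m : ℕ) (x : N) : C.π (C.g^[m] x) = C.π x := by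
  induction m generalizing x with
  | zero => rfl
  | succ m ih => rw [Function.iterate_succ_apply, ih, C.π_g]

/-- The local inverse of the covering as a chart. -/
noncomputable def liftChart (x₀ : N) : OpenPartialHomeomorph N M where
  toFun := C.π
  invFun := C.lift x₀
  source := {x | dist (C.π x₀) (C.π x) < C.δ ∧ C.lift x₀ (C.π x) = x}
  target := {m | dist (C.π x₀) m < C.δ}
  map_source' := fun x hx => hx.1
  map_target' := fun m hm => by
    have h : C.π (C.lift x₀ m) = m := C.π_lift x₀ m hm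
    exact ⟨by rw [h]; exact hm, by rw [h]⟩
  left_inv' := fun x hx => hx.2
  right_inv' := fun m hm => C.π_lift x₀ m hm
  open_source := by
    have hc : ContinuousOn (fun x => C.lift x₀ (C.π x)) {x | dist (C.π x₀) (C.π x) < C.δ} := by
      have h1 : ContinuousOn (fun x : N => (x₀, C.π x)) {x | dist (C.π x₀) (C.π x) < C.δ} :=
        (continuous_const.prodMk C.cont_π).continuousOn
      exact C.cont_lift.comp h1 (fun x hx => hx)
    have hW : IsOpen {x | dist (C.π x₀) (C.π x) < C.δ} :=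
      isOpen_lt (continuous_const.dist C.cont_π) continuous_const
    rw [isOpen_iff_mem_nhds]
    rintro x ⟨hx1, hx2⟩
    have h1 : ∀ i ∈ Finset.range n, 0 < i →
        ∀ᶠ y in 𝓝 x, y ≠ C.g^[i] (C.lift x₀ (C.π y)) := by
      intro i hi hi0
      have h2 : ContinuousAt (fun y => C.g^[i] (C.lift x₀ (C.π y))) x :=
        ContinuousAt.comp (f := fun y => C.lift x₀ (C.π y)) (C.cont_g.iterate i).continuousAt
          (hc.continuousAt (hW.mem_nhds hx1))
      refine (ContinuousAt.ne_iff_eventually_ne continuousAt_id h2).1 ?_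
      intro h3
      rw [hx2] at h3
      exact C.free x i hi0 (Finset.mem_range.1 hi) h3.symm
    have h2 : ∀ᶠ y in 𝓝 x, ∀ i ∈ Finset.range n, 0 < i → y ≠ C.g^[i] (C.lift x₀ (C.π y)) := by
      rw [Filter.eventually_all_finset]
      intro i hi
      by_cases hi0 : 0 < i
      · filter_upwards [h1 i hi hi0] with y hy _
        exact hy
      · exact Filter.Eventually.of_forall (fun y h => absurd h hi0)
    filter_upwards [h2, hW.mem_nhds hx1] with y hy hyW
    refine ⟨hyW, ?_⟩
    obtain ⟨i, hi, hyi⟩ := C.fiber (C.lift x₀ (C.π y)) y (C.π_lift x₀ _ hyW)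
    rcases Nat.eq_zero_or_pos i with h0 | h0
    · rw [h0] at hyi
      exact hyi.symm
    · exact absurd hyi (hy i (Finset.mem_range.2 hi) h0)
  open_target := isOpen_lt (continuous_const.dist continuous_id) continuous_const
  continuousOn_toFun := C.cont_π.continuousOn
  continuousOn_invFun := by
    have h1 : ContinuousOn (fun m : M => (x₀, m)) {m | dist (C.π x₀) m < C.δ} :=
      (continuous_const.prodMk continuous_id).continuousOn
    exact C.cont_lift.comp h1 (fun x hx => hx)

theorem mem_liftChart_source (x₀ : N) : x₀ ∈ (liftChart C x₀).source := by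
  show dist (C.π x₀) (C.π x₀) < C.δ ∧ C.lift x₀ (C.π x₀) = x₀
  exact ⟨by rw [dist_self]; exact C.δ_pos, C.lift_self x₀⟩

end Cyclic

section ToDescent

variable {E : Type} [TopologicalSpace E] {G : Type} [Group G] [MulAction G E]
  {P : Set E} {F : E → ℝ} {θ : I → E → E}

/-- Passing from the group formulation to the generator formulation. -/
theorem GMove.descent (h : GMove G F P ∅ θ) {g : E → E} (γ : G) (hγ : ∀ x, g x = γ • x) :
    Descent g P F (fun s => θ (projIcc 0 1 zero_le_one s)) where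
  maps s _ x hx := h.mapsX _ x hx
  le s _ x hx := h.mono _ x hx
  zero x hx := by
    show θ (projIcc 0 1 zero_le_one 0) x = x
    rw [projIcc_left]
    exact h.zero x hx
  eqv s _ x hx := by
    show θ _ (g x) = g (θ _ x)
    rw [hγ, hγ, h.equiv γ _ x hx]
  cont := by
    have h1 : ContinuousOn (fun q : ℝ × E => ((projIcc 0 1 zero_le_one q.1 : I), q.2))
        (Icc (0 : ℝ) 1 ×ˢ P) :=
      ((continuous_projIcc.comp continuous_fst).prodMk continuous_snd).continuousOn
    exact h.cont.comp h1 (fun q hq => ⟨mem_univ _, hq.2⟩)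
  strict x hx hFx := by
    show θ (projIcc 0 1 zero_le_one 1) x = x
    have h1 : (projIcc 0 1 zero_le_one 1 : I) = 1 := projIcc_right _
    have h2 : F (θ (projIcc 0 1 zero_le_one 1) x) = F x := hFx
    rw [h1] at h2 ⊢
    rcases h.strict x hx with h3 | h3
    · exact h3
    · exact absurd h2 h3.ne

end ToDescent

section Noncritical

variable {V : Type} [NormedAddCommGroup V] [NormedSpace ℝ V] [FiniteDimensional ℝ V]
  {M N : Type} [MetricSpace M] [ChartedSpace V M] [IsManifold 𝓘(ℝ, V) ∞ M] [MetricSpace N]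
  {n : ℕ} (C : CycCover M N n)
  {Z : Type} [NormedAddCommGroup Z] [NormedSpace ℝ Z] [FiniteDimensional ℝ Z]

/-- The chart of the cover times `Z`. -/
noncomputable def coverChart (x₀ : N × Z) : OpenPartialHomeomorph (N × Z) (V × Z) :=
  ((liftChart C x₀.1).trans (chartAt V (C.π x₀.1))).prod (OpenPartialHomeomorph.refl Z)

theorem mem_coverChart (x₀ : N × Z) : x₀ ∈ (coverChart (V := V) C x₀).source := by
  unfold coverChart
  rw [OpenPartialHomeomorph.prod_source, OpenPartialHomeomorph.trans_source]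
  refine ⟨⟨mem_liftChart_source C x₀.1, ?_⟩, mem_univ _⟩
  exact mem_chart_source V (C.π x₀.1)

theorem coverChart_apply (x₀ : N × Z) : coverChart (V := V) C x₀ x₀ =
    extChartAt (𝓘(ℝ, V).prod 𝓘(ℝ, Z)) (C.π x₀.1, x₀.2) (C.π x₀.1, x₀.2) := rfl

/-- In the chart, the lifted function is the function on `M × Z` read in its chart. -/
theorem coverChart_eventuallyEq (F : M × Z → ℝ) (x₀ : N × Z) :
    (fun x : N × Z => F (C.π x.1, x.2)) ∘ (coverChart (V := V) C x₀).symm
      =ᶠ[𝓝 (coverChart (V := V) C x₀ x₀)]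
      F ∘ (extChartAt (𝓘(ℝ, V).prod 𝓘(ℝ, Z)) (C.π x₀.1, x₀.2)).symm := by
  have h1 : ∀ᶠ w in 𝓝 (coverChart (V := V) C x₀ x₀), w ∈ (coverChart (V := V) C x₀).target :=
    (coverChart (V := V) C x₀).open_target.mem_nhds
      ((coverChart (V := V) C x₀).map_source (mem_coverChart C x₀))
  filter_upwards [h1] with w hw
  unfold coverChart at hw
  rw [OpenPartialHomeomorph.prod_target, OpenPartialHomeomorph.trans_target] at hw
  have h2 : (chartAt V (C.π x₀.1)).symm w.1 ∈ (liftChart C x₀.1).target := hw.1.2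
  show F (C.π (C.lift x₀.1 ((chartAt V (C.π x₀.1)).symm w.1)), w.2) =
    F ((chartAt V (C.π x₀.1)).symm w.1, w.2)
  rw [C.π_lift x₀.1 _ h2]

/-- Near a noncritical point in the interior of `univ ×ˢ K` there is a descent which strictly
decreases the function. -/
theorem exists_descent_noncrit {K : Set Z} {F : M × Z → ℝ}
    (hF : ContMDiff (𝓘(ℝ, V).prod 𝓘(ℝ, Z)) 𝓘(ℝ, ℝ) ∞ F) {x₀ : N × Z} (hz : x₀.2 ∈ interior K)
    (hx : (C.π x₀.1, x₀.2) ∉ Loc.Crit (𝓘(ℝ, V).prod 𝓘(ℝ, Z)) F) :
    ∃ D, Descent (Prod.map C.g id) (univ ×ˢ K) (fun x : N × Z => F (C.π x.1, x.2)) D ∧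
      ∃ U ∈ 𝓝[univ ×ˢ K] x₀, ∀ y ∈ U, F (C.π (D 1 y).1, (D 1 y).2) < F (C.π y.1, y.2) := by
  have _ : NeZero n := ⟨C.n_pos.ne'⟩
  let _ := cycAct C
  have hcN : ContinuousConstSMul (Multiplicative (ZMod n)) N :=
    ⟨fun γ => C.cont_g.iterate _⟩
  let _ := actFst (Multiplicative (ZMod n)) N Z
  have _ : ContinuousConstSMul (Multiplicative (ZMod n)) (N × Z) := continuousConstSMul_actFst
  have _ : ProperSpace (V × Z) := FiniteDimensional.proper ℝ (V × Z)
  have _ : Finite (Multiplicative (ZMod n)) := inferInstanceAs (Finite (ZMod n))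
  set p₀ : M × Z := (C.π x₀.1, x₀.2) with hp₀
  have h1 := (H934.mem_Crit_iff hF p₀ (mem_extChartAt_source p₀)).not.1 hx
  have h2 : ContDiffAt ℝ 1 (F ∘ (extChartAt (𝓘(ℝ, V).prod 𝓘(ℝ, Z)) p₀).symm)
      (extChartAt (𝓘(ℝ, V).prod 𝓘(ℝ, Z)) p₀ p₀) := by
    have h3 : ContMDiffOn 𝓘(ℝ, V × Z) 𝓘(ℝ, ℝ) ∞
        (F ∘ (extChartAt (𝓘(ℝ, V).prod 𝓘(ℝ, Z)) p₀).symm)
        (extChartAt (𝓘(ℝ, V).prod 𝓘(ℝ, Z)) p₀).target :=
      hF.comp_contMDiffOn (contMDiffOn_extChartAt_symm p₀)
    have h4 := contMDiffOn_iff_contDiffOn.1 h3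
    exact (h4.contDiffAt (extChartAt_target_mem_nhds p₀)).of_le (by exact_mod_cast le_top)
  have h3 := coverChart_eventuallyEq (V := V) C F x₀
  have hd : ContDiffAt ℝ 1 ((fun x : N × Z => F (C.π x.1, x.2)) ∘ (coverChart (V := V) C x₀).symm)
      (coverChart (V := V) C x₀ x₀) := by
    refine ContDiffAt.congr_of_eventuallyEq ?_ h3
    rw [coverChart_apply]
    exact h2
  have hne : fderiv ℝ ((fun x : N × Z => F (C.π x.1, x.2)) ∘ (coverChart (V := V) C x₀).symm)
      (coverChart (V := V) C x₀ x₀) ≠ 0 := by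
    rw [h3.fderiv_eq, coverChart_apply]
    exact h1
  have hPx : (univ ×ˢ K : Set (N × Z)) ∈ 𝓝 x₀ := by
    have : (univ ×ˢ K : Set (N × Z)) ∈ 𝓝 (x₀.1, x₀.2) :=
      prod_mem_nhds univ_mem (mem_interior_iff_mem_nhds.1 hz)
    simpa using this
  obtain ⟨θ, hθ, W, hW, hlt⟩ := exists_local_move (G := Multiplicative (ZMod n)) (A := ∅)
    (F := fun x : N × Z => F (C.π x.1, x.2)) hPx (by simp)
    (fun γ x hx => ⟨mem_univ _, hx.2⟩) (fun γ x hx => hx.elim)
    (fun γ x => by
      show F (C.π (C.g^[(Multiplicative.toAdd γ).val] x.1), x.2) = F (C.π x.1, x.2)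
      rw [π_iter C])
    (fun γ hγ h => by
      have h5 : C.g^[(Multiplicative.toAdd γ).val] x₀.1 = x₀.1 := congrArg Prod.fst h
      rcases Nat.eq_zero_or_pos (Multiplicative.toAdd γ).val with h0 | h0
      · apply hγ
        have h6 : Multiplicative.toAdd γ = 0 := (ZMod.val_eq_zero _).1 h0
        exact h6
      · exact C.free x₀.1 _ h0 (ZMod.val_lt _) h5)
    (coverChart (V := V) C x₀) (mem_coverChart C x₀) hd hne
  refine ⟨_, hθ.descent (g := Prod.map C.g id) (Multiplicative.ofAdd (1 : ZMod n)) (fun x => ?_),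
    W ∩ univ ×ˢ K, inter_mem (mem_nhdsWithin_of_mem_nhds hW) self_mem_nhdsWithin, ?_⟩
  · show (C.g x.1, x.2) = (C.g^[(Multiplicative.toAdd (Multiplicative.ofAdd (1 : ZMod n))).val] x.1,
      x.2)
    rw [cycAct_one C]
  · rintro y ⟨hy1, hy2⟩
    have h5 := hlt y hy1 hy2
    have h6 : (projIcc 0 1 zero_le_one 1 : I) = 1 := projIcc_right _
    show F (C.π (θ (projIcc 0 1 zero_le_one 1) y).1, (θ (projIcc 0 1 zero_le_one 1) y).2) < _
    rw [h6]
    exact h5

end Noncritical

end Vale.Agent.P265.H933
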