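import Mathlib.Topology.Separation.Hausdorff
import Mathlib.Algebra.BigOperators.Group.Finset.Basic
import Mathlib.Topology.Algebra.Monoid
import Vale.Agent.P265.H933.Regular

/-! Modification of an invariant function near finitely many free orbits of nondegenerate critical
points: the new function is exactly quadratic near them, with distinct values. -/

open Set Topology unitInterval Metric Filter

set_option linter.unusedSectionVars false

namespace Vale.Agent.P265.H933

/-- The conclusion of the bump lemma. -/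
def BumpSpec {a b : ℕ} (f : Wab a b → ℝ) : Prop :=
  ∃ r₀ > 0, ∀ r, 0 < r → r ≤ r₀ → ∃ r₁, 0 < r₁ ∧ r₁ < r ∧ ∃ a₀ > 0, ∀ t, |t| ≤ a₀ →
    ∃ fh : Wab a b → ℝ, (∀ w, r ≤ ‖w‖ → fh w = f w) ∧ (∀ w, ‖w‖ ≤ r₁ → fh w = f 0 + t + qf w) ∧
      (∀ w, ‖w‖ ≤ r → ContDiffAt ℝ 1 fh w) ∧ (∀ w, w ≠ 0 → ‖w‖ ≤ r → fderiv ℝ fh w ≠ 0)

/-- Small perturbations make finitely many numbers distinct. -/
theorem exists_distinct {ι : Type*} [Finite ι] (c a : ι → ℝ) (ha : ∀ i, 0 < a i) :
    ∃ t : ι → ℝ, (∀ i, |t i| ≤ a i) ∧ Function.Injective (fun i => c i + t i) := by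
  obtain ⟨k, hk⟩ := exists_injective_nat ι
  rcases isEmpty_or_nonempty ι with he | hne
  · exact ⟨fun _ => 0, fun i => (he.false i).elim, fun i => (he.false i).elim⟩
  obtain ⟨i₀, hi₀⟩ := Finite.exists_min (fun i => a i / ((k i : ℝ) + 1))
  set ε : ℝ := a i₀ / ((k i₀ : ℝ) + 1) with hε
  have hε0 : 0 < ε := div_pos (ha _) (by positivity)
  set B : Set ℝ := ⋃ p : ι × ι, {s | p.1 ≠ p.2 ∧ c p.1 + s * k p.1 = c p.2 + s * k p.2} with hB
  have hBf : B.Finite := by
    refine finite_iUnion (fun p => Set.Subsingleton.finite ?_)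
    rintro s ⟨h1, h2⟩ s' ⟨_, h3⟩
    have h4 : (k p.1 : ℝ) ≠ k p.2 := fun h => h1 (hk (by exact_mod_cast h))
    have h5 : (s - s') * ((k p.1 : ℝ) - k p.2) = 0 := by linear_combination h2 - h3
    rcases mul_eq_zero.1 h5 with h6 | h6
    · linarith
    · exact absurd (sub_eq_zero.1 h6) h4
  obtain ⟨s, hs, hsB⟩ := ((Ioo_infinite hε0).sdiff hBf).nonempty
  refine ⟨fun i => s * k i, fun i => ?_, fun i j hij => ?_⟩
  · rw [abs_of_nonneg (mul_nonneg hs.1.le (by positivity))]
    have h1 := hi₀ i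
    have h2 : s ≤ a i / ((k i : ℝ) + 1) := hs.2.le.trans h1
    rw [le_div_iff₀ (by positivity)] at h2
    nlinarith [hs.1]
  · by_contra hne
    exact hsB (mem_iUnion.2 ⟨(i, j), hne, hij⟩)

section Kset

variable {Y : Type*} [TopologicalSpace Y] {E : Type*} [NormedAddCommGroup E] [NormedSpace ℝ E]

/-- The closed coordinate ball. -/
def kset (e : OpenPartialHomeomorph Y E) (r : ℝ) : Set Y := e.source ∩ e ⁻¹' closedBall 0 r

theorem kset_eq {e : OpenPartialHomeomorph Y E} {r : ℝ} (h : closedBall 0 r ⊆ e.target) :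
    kset e r = e.symm '' closedBall 0 r := by
  ext x
  constructor
  · rintro ⟨h1, h2⟩
    exact ⟨e x, h2, e.left_inv h1⟩
  · rintro ⟨w, hw, rfl⟩
    exact ⟨e.map_target (h hw), by rw [mem_preimage, e.right_inv (h hw)]; exact hw⟩

theorem isCompact_kset [ProperSpace E] {e : OpenPartialHomeomorph Y E} {r : ℝ}
    (h : closedBall 0 r ⊆ e.target) : IsCompact (kset e r) := by
  rw [kset_eq h]
  exact (isCompact_closedBall _ _).image_of_continuousOn (e.continuousOn_symm.mono h)

open Classical in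
/-- The correction term. -/
noncomputable def corr (e : OpenPartialHomeomorph Y E) (r : ℝ) (fh : E → ℝ) (F : Y → ℝ) (x : Y) :
    ℝ :=
  if x ∈ kset e r then fh (e x) - F x else 0

variable {e : OpenPartialHomeomorph Y E} {r : ℝ} {fh : E → ℝ} {F : Y → ℝ}

theorem add_corr (hfar : ∀ w, r ≤ ‖w‖ → fh w = F (e.symm w)) {x : Y} (hx : x ∈ e.source) :
    F x + corr e r fh F x = fh (e x) := by
  unfold corr
  split_ifs with h
  · ring
  · have h1 : r ≤ ‖e x‖ := by
      by_contra h2
      exact h ⟨hx, by simpa using (not_le.1 h2).le⟩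
    rw [hfar _ h1, e.left_inv hx, add_zero]

theorem continuous_corr [T2Space Y] [ProperSpace E] (ht : closedBall 0 r ⊆ e.target)
    (hF : Continuous F) (hfar : ∀ w, r ≤ ‖w‖ → fh w = F (e.symm w))
    (hfh : ∀ w, ‖w‖ ≤ r → ContinuousAt fh w) : Continuous (corr e r fh F) := by
  have hK : IsClosed (kset e r) := (isCompact_kset ht).isClosed
  set D : Set Y := (e.source ∩ e ⁻¹' ball 0 r)ᶜ with hD
  have hDc : IsClosed D := (e.isOpen_inter_preimage isOpen_ball).isClosed_compl
  have h1 : ContinuousOn (corr e r fh F) (kset e r) := by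
    have h2 : ContinuousOn (fun x => fh (e x) - F x) (kset e r) := by
      refine ContinuousOn.sub ?_ hF.continuousOn
      intro x hx
      have h3 : ContinuousAt fh (e x) := hfh _ (by simpa using hx.2)
      exact ContinuousAt.comp_continuousWithinAt (f := e) h3
        (e.continuousAt hx.1).continuousWithinAt
    exact h2.congr (fun x hx => if_pos hx)
  have h4 : ContinuousOn (corr e r fh F) D := by
    refine (continuousOn_const (c := (0 : ℝ))).congr (fun x hx => ?_)
    by_cases h : x ∈ kset e r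
    · have h7 : ¬ (e x ∈ ball (0 : E) r) := fun h8 => hx ⟨h.1, h8⟩
      have h9 : r ≤ ‖e x‖ := by
        rw [mem_ball_zero_iff, not_lt] at h7; exact h7
      have h10 := add_corr (e := e) hfar h.1
      have h11 := hfar _ h9
      rw [e.left_inv h.1] at h11
      linarith
    · exact if_neg h
  have h5 := h1.union_of_isClosed h4 hK hDc
  rw [← continuousOn_univ]
  refine h5.mono (fun x _ => ?_)
  by_cases h : x ∈ kset e r
  · exact Or.inl h
  · exact Or.inr (fun h6 => h ⟨h6.1, ball_subset_closedBall h6.2⟩)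

end Kset

section Modify

variable {Y : Type*} [TopologicalSpace Y] {G : Type*} [Group G] [MulAction G Y]
  {E : Type*} [NormedAddCommGroup E] [NormedSpace ℝ E]

/-- Finitely many free orbits have neighbourhoods with disjoint translates. -/
theorem exists_orbit_nhds [Finite G] [ContinuousConstSMul G Y] [T2Space Y] {ι : Type*} [Finite ι]
    (y : ι → Y) (hsep : ∀ i j (g h : G), g • y i = h • y j → i = j ∧ g = h) :
    ∃ O : ι → Set Y, (∀ i, IsOpen (O i)) ∧ (∀ i, y i ∈ O i) ∧
      ∀ i j (g h : G), ∀ x ∈ O i, ∀ x' ∈ O j, g • x = h • x' → i = j ∧ g = h := by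
  set S : Set Y := range (fun p : ι × G => p.2 • y p.1) with hS
  have hSf : S.Finite := finite_range _
  obtain ⟨U, hU, hUd⟩ := hSf.t2_separation
  refine ⟨fun i => ⋂ g : G, (g • ·) ⁻¹' U (g • y i), fun i => ?_, fun i => ?_, ?_⟩
  · exact isOpen_iInter_of_finite (fun g => (hU _).2.preimage (continuous_const_smul g))
  · exact mem_iInter.2 (fun g => (hU _).1)
  · intro i j g h x hx x' hx' hxx
    have h1 : g • x ∈ U (g • y i) := mem_iInter.1 hx g
    have h2 : h • x' ∈ U (h • y j) := mem_iInter.1 hx' h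
    by_contra hne
    have h3 : g • y i ≠ h • y j := fun h4 => hne (hsep i j g h h4)
    have h5 := hUd ⟨(i, g), rfl⟩ ⟨(j, h), rfl⟩ h3
    exact (Set.disjoint_left.1 h5) h1 (hxx ▸ h2)

/-- Quadratic modification near finitely many free orbits. -/
theorem exists_modify [Finite G] [ContinuousConstSMul G Y] [T2Space Y] {ι : Type*} [Finite ι]
    {F : Y → ℝ} (hF : Continuous F) (hinv : ∀ (g : G) (x : Y), F (g • x) = F x)
    (y : ι → Y) (a b : ι → ℕ) (L : ∀ i, Wab (a i) (b i) ≃L[ℝ] E)
    (e : ∀ i, OpenPartialHomeomorph Y (Wab (a i) (b i))) (hy : ∀ i, y i ∈ (e i).source)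
    (he : ∀ i, e i (y i) = 0) (hb : ∀ i, BumpSpec (F ∘ (e i).symm))
    (hsep : ∀ i j (g h : G), g • y i = h • y j → i = j ∧ g = h)
    {V : Set Y} (hV : IsOpen V) (hyV : ∀ i, y i ∈ V) (hVinv : ∀ (g : G), ∀ x ∈ V, g • x ∈ V) :
    ∃ (Fh : Y → ℝ) (r : ℝ) (c : ι → ℝ), 0 < r ∧ Continuous Fh ∧
      (∀ (g : G) (x : Y), Fh (g • x) = Fh x) ∧ (∀ x, x ∉ V → Fh x = F x) ∧
      Function.Injective c ∧ (∀ i, closedBall 0 (2 * r) ⊆ (e i).target) ∧
      (∀ i, ∀ w ∈ closedBall (0 : Wab (a i) (b i)) (2 * r), (e i).symm w ∈ V ∧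
        Fh ((e i).symm w) = c i + qf w) ∧
      (∀ i j (g h : G), ∀ w ∈ closedBall (0 : Wab (a i) (b i)) (2 * r),
        ∀ w' ∈ closedBall (0 : Wab (a j) (b j)) (2 * r),
        g • (e i).symm w = h • (e j).symm w' → i = j ∧ g = h) ∧
      (∀ x, (∀ i (g : G), x ≠ g • y i) → RegularAt E F x → RegularAt E Fh x) := by
  classical
  obtain ⟨O, hO, hyO, hOd⟩ := exists_orbit_nhds y hsep
  choose r₀ hr₀ hb using hb
  -- radii of the coordinate balls
  have hrad : ∀ i, ∃ ρ, 0 < ρ ∧ ρ ≤ r₀ i ∧ closedBall 0 ρ ⊆ (e i).target ∧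
      ∀ w ∈ closedBall (0 : Wab (a i) (b i)) ρ, (e i).symm w ∈ O i ∩ V := by
    intro i
    have h0 : (0 : Wab (a i) (b i)) ∈ (e i).target := he i ▸ (e i).map_source (hy i)
    have h1 : ∀ᶠ w in 𝓝 (0 : Wab (a i) (b i)), w ∈ (e i).target :=
      (e i).open_target.mem_nhds h0
    have h2 : ∀ᶠ w in 𝓝 (0 : Wab (a i) (b i)), (e i).symm w ∈ O i ∩ V := by
      have h3 : ContinuousAt (e i).symm 0 := (e i).continuousAt_symm h0
      have h4 : (e i).symm 0 = y i := by rw [← he i, (e i).left_inv (hy i)]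
      refine h3.eventually ?_
      rw [h4]
      exact inter_mem ((hO i).mem_nhds (hyO i)) (hV.mem_nhds (hyV i))
    obtain ⟨ρ, hρ, hρb⟩ := Metric.eventually_nhds_iff_ball.1 (h1.and h2)
    have hsub : closedBall (0 : Wab (a i) (b i)) (min (ρ / 2) (r₀ i)) ⊆ ball 0 ρ :=
      closedBall_subset_ball ((min_le_left _ _).trans_lt (by linarith))
    exact ⟨min (ρ / 2) (r₀ i), lt_min (by positivity) (hr₀ i), min_le_right _ _,
      fun w hw => (hρb w (hsub hw)).1, fun w hw => (hρb w (hsub hw)).2⟩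
  choose ρ hρ hρr hρt hρO using hrad
  choose r₁ hr₁ hr₁ρ a₀ ha₀ hb using fun i => hb i (ρ i) (hρ i) (hρr i)
  obtain ⟨t, ht, htinj⟩ := exists_distinct (fun i => F (y i)) a₀ ha₀
  choose fh hfar hnear hfc hfd using fun i => hb i (t i) (ht i)
  obtain ⟨r, hr, hrr⟩ : ∃ r : ℝ, 0 < r ∧ ∀ i, 2 * r ≤ r₁ i := by
    rcases isEmpty_or_nonempty ι with hem | hne
    · exact ⟨1, one_pos, fun i => (hem.false i).elim⟩
    · obtain ⟨i₀, hi₀⟩ := Finite.exists_min r₁
      exact ⟨r₁ i₀ / 2, by linarith [hr₁ i₀], fun i => by linarith [hi₀ i]⟩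
  have hKO : ∀ i, ∀ x ∈ kset (e i) (ρ i), x ∈ O i ∩ V := by
    intro i x hx
    rw [kset_eq (hρt i)] at hx
    obtain ⟨w, hw, rfl⟩ := hx
    exact hρO i w hw
  cases nonempty_fintype ι
  cases nonempty_fintype G
  set d : ι → Y → ℝ := fun i => corr (e i) (ρ i) (fh i) F with hd
  have hdc : ∀ i, Continuous (d i) := fun i =>
    continuous_corr (hρt i) hF (fun w hw => hfar i w hw) (fun w hw => (hfc i w hw).continuousAt)
  have hd0 : ∀ i x, x ∉ kset (e i) (ρ i) → d i x = 0 := fun i x hx => if_neg hx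
  set Fh : Y → ℝ := fun x => F x + ∑ i, ∑ g : G, d i (g⁻¹ • x) with hFh
  -- local form of `Fh`
  have hloc : ∀ i, ∀ x ∈ O i, Fh x = F x + d i x := by
    intro i x hx
    show F x + ∑ j, ∑ g : G, d j (g⁻¹ • x) = F x + d i x
    congr 1
    have h1 : ∀ j (g : G), (j ≠ i ∨ g ≠ 1) → d j (g⁻¹ • x) = 0 := by
      intro j g hjg
      refine hd0 j _ (fun hk => ?_)
      have h2 := hOd j i g 1 _ (hKO j _ hk).1 x hx (by rw [smul_inv_smul, one_smul])
      rcases hjg with h3 | h3
      · exact h3 h2.1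
      · exact h3 h2.2
    rw [Finset.sum_eq_single i, Finset.sum_eq_single (1 : G)]
    · rw [inv_one, one_smul]
    · intro g _ hg; exact h1 i g (Or.inr hg)
    · intro h; exact absurd (Finset.mem_univ _) h
    · intro j _ hj
      exact Finset.sum_eq_zero (fun g _ => h1 j g (Or.inl hj))
    · intro h; exact absurd (Finset.mem_univ _) h
  have hoff : ∀ x, (∀ i (g : G), g⁻¹ • x ∉ kset (e i) (ρ i)) → Fh x = F x := by
    intro x hx
    show F x + ∑ j, ∑ g : G, d j (g⁻¹ • x) = F x
    rw [Finset.sum_eq_zero, add_zero]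
    intro i _
    exact Finset.sum_eq_zero (fun g _ => hd0 i _ (hx i g))
  have hFhinv : ∀ (g : G) (x : Y), Fh (g • x) = Fh x := by
    intro g x
    show F (g • x) + ∑ j, ∑ h : G, d j (h⁻¹ • g • x) = F x + ∑ j, ∑ h : G, d j (h⁻¹ • x)
    rw [hinv]
    congr 1
    refine Finset.sum_congr rfl (fun j _ => ?_)
    refine Fintype.sum_equiv (Equiv.mulLeft g⁻¹) _ _ (fun h => ?_)
    simp [smul_smul]
  have hFhc : Continuous Fh := by
    refine hF.add (continuous_finsetSum _ (fun i _ => continuous_finsetSum _ (fun g _ => ?_)))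
    exact (hdc i).comp (continuous_const_smul _)
  have hsub : ∀ i, closedBall (0 : Wab (a i) (b i)) (2 * r) ⊆ closedBall 0 (ρ i) := fun i =>
    closedBall_subset_closedBall ((hrr i).trans (hr₁ρ i).le)
  refine ⟨Fh, r, fun i => F (y i) + t i, hr, hFhc, hFhinv, ?_, htinj,
    fun i => (hsub i).trans (hρt i), ?_, ?_, ?_⟩
  · intro x hx
    refine hoff x (fun i g hk => hx ?_)
    have h1 := hVinv g _ (hKO i _ hk).2
    rwa [smul_inv_smul] at h1
  · intro i w hw
    have h1 := hρO i w (hsub i hw)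
    refine ⟨h1.2, ?_⟩
    have h2 : (e i).symm w ∈ (e i).source := (e i).map_target (hρt i (hsub i hw))
    rw [hloc i _ h1.1, add_corr (fun w hw => hfar i w hw) h2,
      (e i).right_inv (hρt i (hsub i hw)),
      hnear i w ((mem_closedBall_zero_iff.1 hw).trans (hrr i))]
    have h3 : (F ∘ (e i).symm) 0 = F (y i) := by
      rw [Function.comp_apply, ← he i, (e i).left_inv (hy i)]
    rw [h3]
  · intro i j g h w hw w' hw' hww
    exact hOd i j g h _ (hρO i w (hsub i hw)).1 _ (hρO j w' (hsub j hw')).1 hww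
  · intro x hx hreg
    by_cases hcase : ∃ i, ∃ g : G, g⁻¹ • x ∈ kset (e i) (ρ i)
    · obtain ⟨i, g, hk⟩ := hcase
      have h0 : RegularAt E Fh (g⁻¹ • x) := by
        set z : Y := g⁻¹ • x with hz
        have hzO : z ∈ O i := (hKO i z hk).1
        have hzy : z ≠ y i := by
          intro h
          apply hx i g
          rw [← h, hz, smul_inv_smul]
        have hez : e i z ≠ 0 := by
          intro h
          apply hzy
          rw [← he i] at h
          exact (e i).injOn hk.1 (hy i) h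
        have hzn : ‖e i z‖ ≤ ρ i := by simpa using hk.2
        have h1 : ∀ᶠ w in 𝓝 (e i z), (Fh ∘ (e i).symm) w = fh i w := by
          have h2 : ∀ᶠ w in 𝓝 (e i z), w ∈ (e i).target :=
            (e i).open_target.mem_nhds ((e i).map_source hk.1)
          have h3 : ∀ᶠ w in 𝓝 (e i z), (e i).symm w ∈ O i := by
            have h4 : ContinuousAt (e i).symm (e i z) :=
              (e i).continuousAt_symm ((e i).map_source hk.1)
            refine h4.eventually ?_
            rw [(e i).left_inv hk.1]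
            exact (hO i).mem_nhds hzO
          filter_upwards [h2, h3] with w hw2 hw3
          rw [Function.comp_apply, hloc i _ hw3,
            add_corr (fun w hw => hfar i w hw) ((e i).map_target hw2), (e i).right_inv hw2]
        have h1' : (Fh ∘ (e i).symm) =ᶠ[𝓝 (e i z)] fh i := h1
        refine RegularAt.of_chart (L i) (e i) hk.1 ?_ ?_
        · exact (hfc i _ hzn).congr_of_eventuallyEq h1'
        · rw [h1'.fderiv_eq]
          exact hfd i _ hez hzn
      exact RegularAt.comp_homeo (Homeomorph.smul g⁻¹) (fun z => hFhinv _ z) h0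
    · push Not at hcase
      refine hreg.congr ?_
      have h1 : IsClosed (⋃ i, ⋃ g : G, (g⁻¹ • ·) ⁻¹' kset (e i) (ρ i)) := by
        refine isClosed_iUnion_of_finite (fun i => isClosed_iUnion_of_finite (fun g => ?_))
        exact (isCompact_kset (hρt i)).isClosed.preimage (continuous_const_smul _)
      have h2 : x ∈ (⋃ i, ⋃ g : G, (g⁻¹ • ·) ⁻¹' kset (e i) (ρ i))ᶜ := by
        simp only [mem_compl_iff, mem_iUnion, not_exists]
        exact hcase
      filter_upwards [h1.isOpen_compl.mem_nhds h2] with z hz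
      simp only [mem_compl_iff, mem_iUnion, not_exists] at hz
      exact (hoff z hz).symm

end Modify

end Vale.Agent.P265.H933
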